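import Vale.Agent.P082.Val.Cross
import Vale.Agent.P082.Avg.Mart

/-!
# The value of a pair of reduced patterns
-/

namespace Vale.Agent.P082.Val

open scoped InnerProductSpace
open Filter

universe u

variable {H : Type u} [NormedAddCommGroup H] [InnerProductSpace ℂ H] [CompleteSpace H]
variable {M : VonNeumannAlgebra H} (W : Walk M) (iz : Fin W.size) {m n : ℕ}

theorem val_map_inl (r : Fin m → Fin n → Fin W.size) (b : List (Lab m)) :
    val W iz r (b.map Sum.inl) = W.block r b := by
  induction b with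
  | nil => rfl
  | cons l b ih => rw [List.map_cons, val_cons, ih]; rfl

theorem val_toks {front : Bool} {pre post : Alg M}
    (hpp : (front = true ∧ W.g iz = pre ∧ post = 1) ∨ (front = false ∧ pre = 1 ∧ W.g iz = post))
    (r : Fin m → Fin n → Fin W.size) (s : List (List (Lab m))) :
    val W iz r (toks front s) = (s.map fun b => pre * W.block r b * post).prod := by
  induction s with
  | nil => rfl
  | cons b s ih =>
    simp only [toks, List.map_cons, List.flatten_cons, List.prod_cons, val_append]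
    rw [← toks, ih]
    congr 1
    rcases hpp with ⟨rfl, hpre, rfl⟩ | ⟨rfl, rfl, hpost⟩
    · simp [blockToks, val_cons, val_map_inl, toItem, itemVal, hpre]
    · simp [blockToks, val_append, val_cons, val_nil, val_map_inl, toItem, itemVal, hpost]

theorem blocks_eq {front : Bool} {pre post : Alg M}
    (hpp : (front = true ∧ W.g iz = pre ∧ post = 1) ∨ (front = false ∧ pre = 1 ∧ W.g iz = post))
    (r : Fin m → Fin n → Fin W.size) {j : ℕ} (s : Fin j → List (Lab m)) :
    W.blocks r pre post s = val W iz r (toks front (List.ofFn s)) := by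
  rw [val_toks W iz hpp, List.map_ofFn]
  rfl

omit [CompleteSpace H] in
theorem countP_toks (front : Bool) (s : List (List (Lab m))) :
    (toks front s).countP (·.isRight) = s.length := by
  induction s with
  | nil => rfl
  | cons b s ih =>
    simp only [toks, List.map_cons, List.flatten_cons, List.countP_append, List.length_cons]
    rw [← toks, ih]
    have h : ∀ b : List (Lab m), (b.map Sum.inl : List (Tok m)).countP (·.isRight) = 0 := by
      intro b; exact List.countP_eq_zero.2 fun x hx => by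
        obtain ⟨y, -, rfl⟩ := List.mem_map.1 hx
        simp
    cases front <;> simp [blockToks, List.countP_cons, h] <;> omega

omit [CompleteSpace H] in
theorem mem_toks (front : Bool) (s : List (List (Lab m))) :
    ∀ t ∈ toks front s, t.isLeft ∨ t = Sum.inr true := by
  intro t ht
  simp only [toks, List.mem_flatten, List.mem_map] at ht
  obtain ⟨-, ⟨b, -, rfl⟩, ht⟩ := ht
  cases front <;>
    simp only [blockToks, cond_true, cond_false, List.mem_append, List.mem_cons, List.mem_map,
      List.not_mem_nil, or_false] at ht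
  · rcases ht with ⟨a, -, rfl⟩ | rfl
    · exact Or.inl rfl
    · exact Or.inr rfl
  · rcases ht with rfl | ⟨a, -, rfl⟩
    · exact Or.inr rfl
    · exact Or.inl rfl

omit [CompleteSpace H] in
theorem first_tok (front : Bool) {s : List (List (Lab m))} (hs : s ≠ [])
    (hne : ∀ b ∈ s, b ≠ []) :
    ∃ la rest, toks front s = (bif front then [Sum.inr true] else []) ++ Sum.inl la :: rest := by
  cases s with
  | nil => exact absurd rfl hs
  | cons b s =>
    cases b with
    | nil => exact absurd rfl (hne [] (by simp))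
    | cons la b => cases front <;> simp [toks, blockToks]

omit [CompleteSpace H] in
/-- Two different patterns with every pair across. -/
theorem cross_shape (front : Bool) {a b : List (List (Lab m))} (hab : a.length = b.length)
    (hnd : (labs (toks front a) ++ (labs (toks front b)).map Lab.flip).Nodup)
    (hcl : ∀ l ∈ labs (toks front a) ++ (labs (toks front b)).map Lab.flip,
      l.flip ∈ labs (toks front a) ++ (labs (toks front b)).map Lab.flip)
    (hA : ∀ l ∈ labs (toks front a), l.flip ∉ labs (toks front a))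
    (hB : ∀ l ∈ labs (toks front b), l.flip ∉ labs (toks front b))
    (hniceA : Nice (toks front a)) (hniceB : Nice (toks front b))
    (hne : toks front a ≠ toks front b) {la : Lab m} {rest : List (Tok m)}
    (hfirst : toks front a = (bif front then [Sum.inr true] else []) ++ Sum.inl la :: rest)
    (hfirstB : ∃ lb rest', toks front b =
      (bif front then [Sum.inr true] else []) ++ Sum.inl lb :: rest') :
    ∃ A' B' S, toks front a = A' ++ S ∧ toks front b = B' ++ S ∧
      (labs (A' ++ rInv B')).Nodup ∧ Nice (A' ++ rInv B') ∧ la ∈ labs A' ∧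
      la.flip ∉ labs A' ∧ la.flip ∈ labs (A' ++ rInv B') := by
  obtain ⟨hndA, hndB', -⟩ := List.nodup_append.1 hnd
  have hndB : (labs (toks front b)).Nodup := List.Nodup.of_map _ hndB'
  have hsub : ∀ x, x ∈ labs (toks front a) ↔ x ∈ labs (toks front b) := by
    intro x
    constructor
    · intro hx
      rcases List.mem_append.1 (hcl x (List.mem_append_left _ hx)) with h | h
      · exact absurd h (hA x hx)
      · obtain ⟨y, hy, hye⟩ := List.mem_map.1 h
        rwa [← flip_flip x, ← hye, flip_flip]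
    · intro hx
      have h := hcl x.flip (List.mem_append_right _ (List.mem_map.2 ⟨x, hx, rfl⟩))
      rw [flip_flip] at h
      rcases List.mem_append.1 h with h | h
      · exact h
      · obtain ⟨y, hy, hye⟩ := List.mem_map.1 h
        exact absurd (by rwa [← hye, flip_flip]) (hB x hx)
  have hlen : (toks front a).length = (toks front b).length := by
    rw [length_toks, length_toks, ← labs_toks front a, ← labs_toks front b,
      ((List.perm_ext_iff_of_nodup hndA hndB).2 hsub).length_eq, hab]
  obtain ⟨A', B', S, hA', hB', hA0, hAB', hne', hN⟩ := exists_reduced _ _ _ rfl hlen hne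
    hniceA hniceB (mem_toks _ _) (mem_toks _ _)
  obtain ⟨lb, restB, hfirstB⟩ := hfirstB
  rw [hfirst] at hA'
  rw [hfirstB] at hB'
  have hla : la ∈ labs A' := by
    refine mem_labs.2 ?_
    cases front with
    | false =>
      cases A' with
      | nil => exact absurd rfl hA0
      | cons x A' => simp at hA'; simp [hA'.1]
    | true =>
      match A', B', hA0, hAB' with
      | [], _, h, _ => exact absurd rfl h
      | x :: y :: A'', _, _, _ => simp at hA'; simp [hA'.2.1]
      | [x], [y], _, _ =>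
        simp at hA' hB'
        exact absurd (by rw [← hA'.1, ← hB'.1]) hne'
  rw [← hfirst] at hA'
  rw [← hfirstB] at hB'
  have hAS : labs (toks front a) = labs A' ++ labs S := by rw [hA', labs_append]
  have hBS : labs (toks front b) = labs B' ++ labs S := by rw [hB', labs_append]
  have hlaA : la ∈ labs (toks front a) := by rw [hAS]; exact List.mem_append_left _ hla
  refine ⟨A', B', S, hA', hB', ?_, hN, hla,
    fun h => hA la hlaA (by rw [hAS]; exact List.mem_append_left _ h), ?_⟩
  · rw [labs_append, labs_rInv, ((List.reverse_perm _).append_left _).nodup_iff]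
    refine hnd.sublist (List.Sublist.append ?_ (List.Sublist.map _ ?_))
    · rw [hAS]; exact List.sublist_append_left _ _
    · rw [hBS]; exact List.sublist_append_left _ _
  · have h := (hsub la).1 hlaA
    rw [hBS, List.mem_append] at h
    have hlaB : la ∈ labs B' := h.resolve_right fun h' =>
      (List.nodup_append.1 (hAS ▸ hndA)).2.2 la hla la h' rfl
    rw [labs_append, labs_rInv]
    exact List.mem_append_right _ (List.mem_reverse.2 (List.mem_map.2 ⟨la, hlaB, rfl⟩))

variable {ξ : H} (hξ : IsTrVec M ξ) (G : Alg M →L[ℂ] Alg M)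
include hξ

/-- All cases at one length. -/
theorem value_bound {n₁ k j P : ℕ} {θ e e2 C Te ε : ℝ} (hj : 1 ≤ j) (hθ : 0 ≤ θ) (he : 0 ≤ e)
    (he2 : 0 ≤ e2) (hC : 0 ≤ C) (hTe : 0 ≤ Te) (hG : ∀ a, ‖G a‖ ≤ C * ‖a‖) (F : Finset H)
    (hF : ∀ ζ ∈ F, IsTrVec M ζ) (hcard : (F.card : ℝ) ≤ Te)
    (hcont : ∀ a, ‖ev ξ (G a)‖ ≤ e * ‖a‖ + Te * ∑ ζ ∈ F, ‖ev ζ a‖)
    (hsF : ∀ ζ ∈ F, Small W iz ζ θ (n₁ + k) (n₁ + k)) (hs : Small W iz ξ θ k (n₁ + k))
    (hs' : Small W iz ξ θ (n₁ + k) (n₁ + k)) {front : Bool} {pre post : Alg M}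
    (hpp : (front = true ∧ W.g iz = pre ∧ post = 1) ∨ (front = false ∧ pre = 1 ∧ W.g iz = post))
    (hmart : ∀ R : ℕ, avgR (fun p : (Fin (n₁ + k) → Fin W.size) × (Fin R → Fin W.size) =>
      ‖ev ξ (G (pre * W.word p.1 * W.word p.2) * star (W.word p.2) - G (pre * W.word p.1))‖ ^ 2)
        ≤ e2 ^ 2)
    (hmart₁ : avgR (fun p : (Fin n₁ → Fin W.size) × (Fin k → Fin W.size) =>
      ‖ev ξ (G (pre * W.word p.1 * W.word p.2) * star (W.word p.2) - G (pre * W.word p.1))‖ ^ 2)
        ≤ e2 ^ 2)
    (hmean : avg (fun y : Fin (n₁ + k) → Fin W.size => G (pre * W.word y) * star (W.word y)) =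
      G pre)
    (hεl : e + Te * (Te * θ) ≤ ε) (hεr : C * θ ≤ ε)
    (hεc : √((W.size : ℝ) ^ j) * e2 + e2 + C * θ ≤ ε)
    (sA sB : Fin j → List (Lab m)) (hg : GoodPair sA sB P) (η : Alg M) :
    ‖avg (fun r : Fin m → Fin (n₁ + k) → Fin W.size =>
        tr ξ (G (W.blocks r pre post sA) * star (W.blocks r pre post sB) * η))
      - (if sA = sB then tr ξ (G pre * star pre * η) else 0)‖ ≤ ε * ‖η‖ := by
  simp only [blocks_eq W iz hpp]
  set LA := toks front (List.ofFn sA) with hLA
  set LB := toks front (List.ofFn sB) with hLB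
  have hlA : labs LA = (List.ofFn sA).flatten := labs_toks _ _
  have hlB : labs LB = (List.ofFn sB).flatten := labs_toks _ _
  have hnd := hg.nodup
  have hcl := hg.closed
  simp only [pairLabels, ← hlA, ← hlB] at hnd hcl
  obtain ⟨hndA, hndB', hdisj⟩ := List.nodup_append.1 hnd
  have hndB : (labs LB).Nodup := List.Nodup.of_map _ hndB'
  have hAB : ∀ x, x ∈ labs LA → x.flip ∉ labs LB := fun x hx hx' =>
    hdisj x hx x (List.mem_map.2 ⟨_, hx', flip_flip x⟩) rfl
  have hfst : ∀ L : List (Lab m), L.Nodup → (∀ x ∈ L, x.flip ∉ L) → (L.map Prod.fst).Nodup := by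
    intro L hL hnp
    refine List.Nodup.map_on (fun x hx y hy hxy => ?_) hL
    rcases eq_or_flip_of_fst hxy.symm with h | h
    · exact h.symm
    · exact absurd (h ▸ hy) (hnp x hx)
  have hniceA : Nice LA := nice_toks _ _ fun b hb => by
    obtain ⟨i, rfl⟩ := List.mem_ofFn.1 hb
    exact ⟨(hg.ne_nil i).1, (hg.reduced i).1⟩
  have hniceB : Nice LB := nice_toks _ _ fun b hb => by
    obtain ⟨i, rfl⟩ := List.mem_ofFn.1 hb
    exact ⟨(hg.ne_nil i).2, (hg.reduced i).2⟩
  obtain ⟨la, rest, hfirst⟩ := first_tok front (s := List.ofFn sA)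
    (by simp [List.ofFn_eq_nil_iff]; omega)
    (fun b hb => by obtain ⟨i, rfl⟩ := List.mem_ofFn.1 hb; exact (hg.ne_nil i).1)
  rw [← hLA] at hfirst
  set hd : List (Tok m) := bif front then [Sum.inr true] else [] with hhd
  have hc : ∀ r : Fin m → Fin (n₁ + k) → Fin W.size, val W iz r hd = pre := by
    intro r
    rcases hpp with ⟨rfl, hpre, -⟩ | ⟨rfl, rfl, -⟩
    · simp [hhd, val, toItem, itemVal, hpre]
    · simp [hhd, val]
  have hlabs : labs LA = labs (Sum.inl la :: rest) := by
    rw [hfirst, labs_append]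
    cases front <;> simp [hhd, labs]
  have hrest : rest.countP (·.isRight) ≤ j := by
    have hsub : List.Sublist rest LA :=
      hfirst ▸ (List.sublist_cons_self _ rest).trans (List.sublist_append_right _ _)
    refine hsub.countP_le.trans_eq ?_
    rw [hLA, countP_toks, List.length_ofFn]
  by_cases hA : ∃ l ∈ labs LA, l.flip ∈ labs LA
  · obtain ⟨l₀, h0, h0'⟩ := hA
    have hne : sA ≠ sB := fun h => hAB l₀ h0 (by rw [hLB, ← h]; exact h0')
    rw [if_neg hne, sub_zero]
    refine (case_left W iz hξ G hθ he hTe F hF hcard hcont hsF _ LB hndA hniceA h0 h0'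
      (fun b hb c hc' hb' he' => ?_) η).trans (mul_le_mul_of_nonneg_right hεl (norm_nonneg _))
    rcases eq_or_flip_of_fst he' with rfl | rfl
    · exact hAB _ hb' (by rwa [flip_flip])
    · exact hAB _ hb hc'
  by_cases hB : ∃ l ∈ labs LB, l.flip ∈ labs LB
  · obtain ⟨l₀, h0, h0'⟩ := hB
    have hne : sA ≠ sB := fun h => hA ⟨l₀, by rw [hLA, h]; exact h0, by rw [hLA, h]; exact h0'⟩
    rw [if_neg hne, sub_zero]
    refine (case_right W iz hξ G hθ hC hG hs' LA LB hndB hniceB h0 h0'
      (fun b hb c hc' hb' he' => ?_) η).trans (mul_le_mul_of_nonneg_right hεr (norm_nonneg _))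
    rcases eq_or_flip_of_fst he' with rfl | rfl
    · exact hAB _ hc' hb'
    · exact hAB _ hc' (by rwa [flip_flip])
  simp only [not_exists, not_and] at hA hB
  have hiA : ((labs (Sum.inl la :: rest)).map Prod.fst).Nodup := hlabs ▸ hfst _ hndA hA
  by_cases hsame : sA = sB
  · subst hsame
    have h0 : LB = hd ++ Sum.inl la :: rest := by rw [hLB, ← hLA, hfirst]
    rw [if_pos rfl, h0, hfirst]
    refine (case_equal W iz hξ G he2 hd rest la pre hc hiA hrest hmart hmean η).trans
      (mul_le_mul_of_nonneg_right ?_ (norm_nonneg _))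
    linarith [mul_nonneg hC hθ]
  rw [if_neg hsame, sub_zero]
  have hlen : (List.ofFn sA).length = (List.ofFn sB).length := by simp
  obtain ⟨A', B', S, hA', hB', hndL, hN, hla, hla', hla''⟩ := cross_shape front hlen
    hnd hcl hA hB hniceA hniceB (fun h => hsame (List.ofFn_injective (toks_injective front _ _ h)))
    hfirst (first_tok front (s := List.ofFn sB) (by simp [List.ofFn_eq_nil_iff]; omega)
    (fun b hb => by obtain ⟨i, rfl⟩ := List.mem_ofFn.1 hb; exact (hg.ne_nil i).2))
  have hval : ∀ r : Fin m → Fin (n₁ + k) → Fin W.size,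
      val W iz r (hd ++ Sum.inl la :: rest) * star (val W iz r LB) =
        val W iz r (A' ++ rInv B') := by
    intro r
    rw [← hfirst, hLA, hA', hLB, hB', val_append, val_append, val_append, val_rInv, star_mul, mul_assoc,
      ← mul_assoc (val W iz r S), Unitary.mul_star_self_of_mem (val_unitary W iz r S), one_mul]
  rw [hfirst]
  exact (case_cross W iz hξ G hθ he2 hC hG hs hs' hd rest A' (rInv B') LB la pre hc hiA hrest
    hmart hmart₁ hval hndL hN hla hla' hla'' η).trans
    (mul_le_mul_of_nonneg_right hεc (norm_nonneg _))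

omit hξ in
theorem eventually_small {ζ : H} (hζ : IsTrVec M ζ) {z : Alg M} {θ δ : ℝ} (hθ : 0 < θ)
    (hδ : δ ≤ θ ^ 2) (hM : Mix W ζ z δ)
    (hiz : ∀ b : Bool, W.g (if b then iz else W.inv iz) = z ∨
      W.g (if b then iz else W.inv iz) = star z) (n₁ : ℕ) :
    ∀ᶠ n in atTop, Small W iz ζ θ (n - n₁) n := by
  obtain ⟨n₀, h1, h2, h3⟩ := ((hM.small 1 (Or.inl rfl)).and ((hM.small z (Or.inr (Or.inl rfl))).and
    (hM.small (star z) (Or.inr (Or.inr rfl))))).exists
  have hg : ∀ᶠ k in atTop, ∀ b : Bool,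
      ‖ev ζ (W.conjAvg^[k] (W.g (if b then iz else W.inv iz)))‖ ≤ θ := by
    filter_upwards [hM.gap.eventually (eventually_le_nhds hθ)] with k hk b
    rcases hiz b with h | h <;> rw [h]
    · exact hk
    · rwa [conjAvg_iterate_star, hζ.star_norm]
  filter_upwards [h1, h2, h3, (tendsto_sub_atTop_nat n₁).eventually hg,
    (tendsto_sub_atTop_nat n₁).eventually (eventually_ge_atTop n₀)] with n k1 k2 k3 kg kn
  refine ⟨kg, n₀, kn, fun Q => hM.decr Q n₀ _ kn, fun c hc => ?_⟩
  rcases hc with rfl | ⟨b, rfl⟩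
  · exact k1.trans hδ
  · rcases hiz b with h | h <;> rw [h]
    · exact k2.trans hδ
    · exact k3.trans hδ

end Vale.Agent.P082.Val

namespace Vale.Agent.P082.Val

open scoped InnerProductSpace
open Filter

universe v

/-- Val. -/
theorem stmtVal : Iface.StmtVal.{v} := by
  intro C T j P ε hC hT hj hε
  set Te := T (ε / 4) with hTe
  have hTe0 : 0 ≤ Te := hT _
  set θ := ε / 2 / (Te ^ 2 + C + 1) with hθdef
  have hden : 0 < Te ^ 2 + C + 1 := by positivity
  have hθ : 0 < θ := by positivity
  have hθε : (Te ^ 2 + C + 1) * θ = ε / 2 := by rw [hθdef]; field_simp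
  refine ⟨θ ^ 2, by positivity, ?_⟩
  intro H _ _ _ M W ξ z G hξ hz hMix hH
  obtain ⟨F, hF, hcard, hcont⟩ := hH.cont (ε / 4) (by linarith)
  set sj := √((W.size : ℝ) ^ j) with hsj
  set e2 := ε / 4 / (sj + 1) with he2def
  have hsj0 : 0 ≤ sj := Real.sqrt_nonneg _
  have he2 : 0 < e2 := by positivity
  have he2ε : sj * e2 + e2 = ε / 4 := by rw [he2def]; field_simp
  obtain ⟨hmean1, hm1⟩ := Avg.stmtMart H M W ξ C T G hξ hH 1
  obtain ⟨hmeanz, hmz⟩ := Avg.stmtMart H M W ξ C T G hξ hH z
  obtain ⟨N₁, hN1⟩ := hm1 (e2 ^ 2) (by positivity)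
  obtain ⟨Nz, hNz⟩ := hmz (e2 ^ 2) (by positivity)
  set n₁ := max N₁ Nz with hn₁
  obtain ⟨iz, hiz⟩ := (hMix ξ hξ).step_z
  have hi : ∀ i : Fin W.size, (W.g i = z ∨ W.g i = star z) → ∀ b : Bool,
      W.g (if b then i else W.inv i) = z ∨ W.g (if b then i else W.inv i) = star z := by
    intro i h b
    cases b
    · rcases h with h | h <;> simp [W.g_inv, h]
    · simpa using h
  have hi1 := hi iz (Or.inl hiz)
  have hi2 := hi (W.inv iz) (Or.inr (by rw [W.g_inv, hiz]))
  have hev : ∀ i : Fin W.size, (∀ b : Bool, W.g (if b then i else W.inv i) = z ∨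
      W.g (if b then i else W.inv i) = star z) → ∀ᶠ n in atTop,
        (∀ ζ ∈ F, Small W i ζ θ n n) ∧ Small W i ξ θ (n - n₁) n ∧ Small W i ξ θ n n := by
    intro i h
    refine Filter.Eventually.and ?_ (Filter.Eventually.and ?_ ?_)
    · rw [eventually_all_finset]
      intro ζ hζ
      simpa using eventually_small W i (hF ζ hζ) hθ le_rfl (hMix ζ (hF ζ hζ)) h 0
    · exact eventually_small W i hξ hθ le_rfl (hMix ξ hξ) h n₁
    · simpa using eventually_small W i hξ hθ le_rfl (hMix ξ hξ) h 0
  filter_upwards [hev iz hi1, hev _ hi2, eventually_ge_atTop n₁] with n hs1 hs2 hn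
  intro m pre post hpp sA sB hg η
  obtain ⟨k, rfl⟩ := Nat.exists_eq_add_of_le hn
  rw [Nat.add_sub_cancel_left] at hs1 hs2
  have hεl : ε / 4 + Te * (Te * θ) ≤ ε := by nlinarith [mul_nonneg hC hθ.le]
  have hεr : C * θ ≤ ε := by nlinarith [mul_nonneg (sq_nonneg Te) hθ.le]
  have hεc : sj * e2 + e2 + C * θ ≤ ε := by nlinarith [mul_nonneg (sq_nonneg Te) hθ.le]
  rcases hpp with ⟨rfl, rfl⟩ | ⟨rfl, rfl⟩
  · exact value_bound W iz hξ G (front := true) hj hθ.le (by linarith) he2.le hC hTe0 hH.bound F hF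
      hcard hcont hs1.1 hs1.2.1 hs1.2.2 (Or.inl ⟨rfl, hiz, rfl⟩)
      (hNz _ (by omega)) (hNz n₁ (le_max_right _ _) k) (hmeanz _) hεl hεr hεc sA sB hg η
  · exact value_bound W (W.inv iz) hξ G (front := false) hj hθ.le (by linarith) he2.le hC hTe0
      hH.bound F hF hcard hcont hs2.1 hs2.2.1 hs2.2.2
      (Or.inr ⟨rfl, rfl, by rw [W.g_inv, hiz]⟩)
      (hN1 _ (by omega)) (hN1 n₁ (le_max_left _ _) k) (hmean1 _) hεl hεr hεc sA sB hg η

end Vale.Agent.P082.Val
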