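import Vale.Agent.P082.Iface

/-!
# Tracial vectors, averages and words
-/

namespace Vale.Agent.P082.Val

open scoped InnerProductSpace

universe u

variable {H : Type u} [NormedAddCommGroup H] [InnerProductSpace ℂ H] [CompleteSpace H]
variable {M : VonNeumannAlgebra H}

section Avg

variable {α β : Type*} [Fintype α] [Fintype β] {E : Type*}

theorem avg_smul_eq [AddCommMonoid E] [Module ℂ E] (f : α → E) :
    avg f = (Fintype.card α : ℂ)⁻¹ • ∑ a, f a := rfl

theorem avgR_nonneg {f : α → ℝ} (h : ∀ a, 0 ≤ f a) : 0 ≤ avgR f :=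
  mul_nonneg (inv_nonneg.2 (Nat.cast_nonneg _)) (Finset.sum_nonneg fun a _ => h a)

theorem avgR_mono {f g : α → ℝ} (h : ∀ a, f a ≤ g a) : avgR f ≤ avgR g :=
  mul_le_mul_of_nonneg_left (Finset.sum_le_sum fun a _ => h a) (inv_nonneg.2 (Nat.cast_nonneg _))

theorem avgR_le [Nonempty α] {f : α → ℝ} {c : ℝ} (h : ∀ a, f a ≤ c) : avgR f ≤ c := by
  refine (avgR_mono h).trans_eq ?_
  simp [avgR, Finset.card_univ]

theorem avgR_add (f g : α → ℝ) : avgR (fun a => f a + g a) = avgR f + avgR g := by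
  simp [avgR, Finset.sum_add_distrib, mul_add]

theorem avgR_mul (c : ℝ) (f : α → ℝ) : avgR (fun a => c * f a) = c * avgR f := by
  simp [avgR, Finset.mul_sum, mul_left_comm]

theorem avgR_const [Nonempty α] (c : ℝ) : avgR (fun _ : α => c) = c := by
  simp [avgR, Finset.card_univ]

theorem avgR_equiv (e : β ≃ α) (f : α → ℝ) : avgR (fun b => f (e b)) = avgR f := by
  rw [avgR, avgR, Fintype.card_congr e, e.sum_comp]

theorem avgR_prod (f : α × β → ℝ) : avgR f = avgR (fun a => avgR fun b => f (a, b)) := by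
  simp only [avgR, Fintype.sum_prod_type, Fintype.card_prod, Finset.mul_sum, Nat.cast_mul, mul_inv]
  exact Finset.sum_congr rfl fun a _ => Finset.sum_congr rfl fun b _ => mul_assoc _ _ _

theorem avgR_sum {ι : Type*} (s : Finset ι) (f : ι → α → ℝ) :
    avgR (fun a => ∑ i ∈ s, f i a) = ∑ i ∈ s, avgR (f i) := by
  simp only [avgR, Finset.mul_sum]
  exact Finset.sum_comm

theorem sq_avgR_le (f : α → ℝ) : avgR f ^ 2 ≤ avgR (fun a => f a ^ 2) := by
  rcases isEmpty_or_nonempty α with h | h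
  · simp [avgR]
  have hc : (0 : ℝ) < (Fintype.card α : ℝ) := by exact_mod_cast Fintype.card_pos
  simp only [avgR]
  rw [mul_pow, sq (Fintype.card α : ℝ)⁻¹, mul_assoc]
  refine mul_le_mul_of_nonneg_left ?_ (by positivity)
  rw [inv_mul_le_iff₀ hc]
  exact sq_sum_le_card_mul_sum_sq

variable [AddCommMonoid E] [Module ℂ E]

theorem avg_equiv (e : β ≃ α) (f : α → E) : avg (fun b => f (e b)) = avg f := by
  rw [avg, avg, Fintype.card_congr e, e.sum_comp]

theorem avg_prod (f : α × β → E) : avg f = avg (fun a => avg fun b => f (a, b)) := by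
  simp only [avg, Fintype.sum_prod_type, Finset.smul_sum, smul_smul, Fintype.card_prod,
    Nat.cast_mul, mul_inv]

theorem avg_map {F : Type*} [AddCommMonoid F] [Module ℂ F] (L : E →ₗ[ℂ] F) (f : α → E) :
    L (avg f) = avg fun a => L (f a) := by
  simp [avg]

theorem avg_const [Nonempty α] (c : E) : avg (fun _ : α => c) = c := by
  simp [avg, Finset.card_univ, ← Nat.cast_smul_eq_nsmul ℂ, smul_smul]

end Avg

theorem avg_sub {α : Type*} [Fintype α] {E : Type*} [AddCommGroup E] [Module ℂ E] (f g : α → E) :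
    avg (fun a => f a - g a) = avg f - avg g := by
  simp [avg, Finset.sum_sub_distrib, smul_sub]

theorem norm_avg_le {α : Type*} [Fintype α] {E : Type*} [SeminormedAddCommGroup E]
    [NormedSpace ℂ E] (f : α → E) : ‖avg f‖ ≤ avgR fun a => ‖f a‖ := by
  rw [avg, avgR, norm_smul, norm_inv, Complex.norm_natCast]
  exact mul_le_mul_of_nonneg_left (norm_sum_le _ _) (inv_nonneg.2 (Nat.cast_nonneg _))

/-- Split off one coordinate. -/
theorem avgR_coord {m : ℕ} {β : Type*} [Fintype β] (a : Fin m) (f : (Fin m → β) → ℝ)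
    [Nonempty β] :
    avgR f = avgR fun r => avgR fun x => f (Function.update r a x) := by
  classical
  have hc : (Fintype.card β : ℝ) ≠ 0 := by simp
  simp only [avgR, ← Finset.mul_sum]
  rw [Finset.sum_comm, ← mul_assoc]
  have : ∑ x, ∑ r : Fin m → β, f (Function.update r a x) = (Fintype.card β : ℝ) * ∑ r, f r := by
    simp only [← (Equiv.funSplitAt a β).symm.sum_comp, Fintype.sum_prod_type]
    rw [Finset.mul_sum]
    refine Finset.sum_congr rfl fun x _ => ?_
    have hu : ∀ (x₁ : β) (y : {j // j ≠ a} → β),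
        Function.update ((Equiv.funSplitAt a β).symm (x₁, y)) a x =
          (Equiv.funSplitAt a β).symm (x, y) := by
      intro x₁ y
      funext i
      by_cases hi : i = a
      · subst hi; simp [Equiv.funSplitAt, Equiv.piSplitAt]
      · simp [Equiv.funSplitAt, Equiv.piSplitAt, hi]
    simp only [hu, Finset.sum_const, Finset.card_univ, nsmul_eq_mul]
  rw [this]; field_simp

/-- Split off one coordinate. -/
theorem avg_coord {m : ℕ} {β : Type*} [Fintype β] {E : Type*} [AddCommMonoid E] [Module ℂ E]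
    (a : Fin m) (f : (Fin m → β) → E) [Nonempty β] :
    avg f = avg fun r => avg fun x => f (Function.update r a x) := by
  classical
  have hc : (Fintype.card β : ℂ) ≠ 0 := by simp
  simp only [avg, ← Finset.smul_sum]
  rw [Finset.sum_comm, smul_smul]
  have : ∑ x, ∑ r : Fin m → β, f (Function.update r a x) = (Fintype.card β : ℂ) • ∑ r, f r := by
    simp only [← (Equiv.funSplitAt a β).symm.sum_comp, Fintype.sum_prod_type]
    rw [Finset.smul_sum]
    refine Finset.sum_congr rfl fun x _ => ?_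
    have hu : ∀ (x₁ : β) (y : {j // j ≠ a} → β),
        Function.update ((Equiv.funSplitAt a β).symm (x₁, y)) a x =
          (Equiv.funSplitAt a β).symm (x, y) := by
      intro x₁ y
      funext i
      by_cases hi : i = a
      · subst hi; simp [Equiv.funSplitAt, Equiv.piSplitAt]
      · simp [Equiv.funSplitAt, Equiv.piSplitAt, hi]
    simp only [hu, Finset.sum_const, Finset.card_univ, Nat.cast_smul_eq_nsmul]
  rw [this, smul_smul, mul_assoc, inv_mul_cancel₀ hc, mul_one]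

section Tracial

variable {ξ : H}

theorem ev_mul (a b : Alg M) : ev ξ (a * b) = (a : H →L[ℂ] H) (ev ξ b) := rfl

theorem ev_add (a b : Alg M) : ev ξ (a + b) = ev ξ a + ev ξ b := rfl

theorem ev_sub (a b : Alg M) : ev ξ (a - b) = ev ξ a - ev ξ b := by
  simp [ev]

theorem ev_smul (c : ℂ) (a : Alg M) : ev ξ (c • a) = c • ev ξ a := rfl

/-- `ev` as a linear map. -/
noncomputable def evL (ξ : H) : Alg M →ₗ[ℂ] H where
  toFun := ev ξ
  map_add' := ev_add
  map_smul' := ev_smul

theorem ev_avg {α : Type*} [Fintype α] (f : α → Alg M) :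
    ev ξ (avg f) = avg fun a => ev ξ (f a) :=
  avg_map (evL ξ) f

theorem inner_ev_star_left (a b : Alg M) (η : H) :
    ⟪η, ev ξ (star a * b)⟫_ℂ = ⟪(a : H →L[ℂ] H) η, ev ξ b⟫_ℂ := by
  rw [ev_mul, StarMemClass.coe_star, ContinuousLinearMap.star_eq_adjoint,
    ContinuousLinearMap.adjoint_inner_right]

theorem tr_star_mul (a b : Alg M) : tr ξ (star a * b) = ⟪ev ξ a, ev ξ b⟫_ℂ :=
  inner_ev_star_left a b ξ

theorem norm_ev_mul_le (a b : Alg M) : ‖ev ξ (a * b)‖ ≤ ‖a‖ * ‖ev ξ b‖ :=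
  (a : H →L[ℂ] H).le_opNorm _

theorem norm_coe_unitary {u : Alg M} (hu : u ∈ unitary (Alg M)) (x : H) :
    ‖(u : H →L[ℂ] H) x‖ = ‖x‖ := by
  have h : star (u : H →L[ℂ] H) * (u : H →L[ℂ] H) = 1 := congrArg Subtype.val hu.1
  have h2 := congrArg (fun T : H →L[ℂ] H => T x) h
  simp only [mul_apply_eq_comp, one_apply_eq_self] at h2
  rw [norm_eq_sqrt_re_inner (𝕜 := ℂ), norm_eq_sqrt_re_inner (𝕜 := ℂ),
    ← ContinuousLinearMap.adjoint_inner_left, ← ContinuousLinearMap.star_eq_adjoint, h2]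

theorem norm_ev_unitary_mul {u : Alg M} (hu : u ∈ unitary (Alg M)) (a : Alg M) :
    ‖ev ξ (u * a)‖ = ‖ev ξ a‖ := norm_coe_unitary hu _

variable (hξ : IsTrVec M ξ)
include hξ

theorem norm_ev_mul_unitary {u : Alg M} (hu : u ∈ unitary (Alg M)) (a : Alg M) :
    ‖ev ξ (a * u)‖ = ‖ev ξ a‖ := by
  rw [← hξ.star_norm, star_mul, norm_ev_unitary_mul (Unitary.star_mem hu), hξ.star_norm]

theorem norm_ev_mul_le' (a b : Alg M) : ‖ev ξ (a * b)‖ ≤ ‖ev ξ a‖ * ‖b‖ := by
  rw [← hξ.star_norm, star_mul]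
  refine (norm_ev_mul_le _ _).trans_eq ?_
  rw [norm_star, hξ.star_norm, mul_comm]

theorem inner_swap (a b : Alg M) :
    ⟪ev ξ a, ev ξ b⟫_ℂ = ⟪ev ξ (star b), ev ξ (star a)⟫_ℂ := by
  have hr : ∀ a b : Alg M, (⟪ev ξ a, ev ξ b⟫_ℂ).re = (⟪ev ξ (star b), ev ξ (star a)⟫_ℂ).re := by
    intro a b
    have h := hξ.star_norm (a + b)
    have h1 := @norm_add_sq ℂ _ _ _ _ (ev ξ a) (ev ξ b)
    have h2 := @norm_add_sq ℂ _ _ _ _ (ev ξ (star b)) (ev ξ (star a))
    rw [← ev_add] at h1 h2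
    rw [add_comm (star b), ← star_add, h, hξ.star_norm, hξ.star_norm, h1] at h2
    have h2' : ‖ev ξ a‖ ^ 2 + 2 * (⟪ev ξ a, ev ξ b⟫_ℂ).re + ‖ev ξ b‖ ^ 2 =
        ‖ev ξ b‖ ^ 2 + 2 * (⟪ev ξ (star b), ev ξ (star a)⟫_ℂ).re + ‖ev ξ a‖ ^ 2 := h2
    linarith
  apply Complex.ext (hr a b)
  have h := hr (Complex.I • a) b
  rw [star_smul, ev_smul, ev_smul, inner_smul_left, inner_smul_right] at h
  simp only [RCLike.star_def, Complex.conj_I, neg_mul, Complex.neg_re, Complex.mul_re, Complex.I_re,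
    Complex.I_im, zero_mul, one_mul, zero_sub, neg_neg] at h
  exact h

theorem tr_mul_comm (a b : Alg M) : tr ξ (a * b) = tr ξ (b * a) := by
  conv_lhs => rw [← star_star a, tr_star_mul, inner_swap hξ, star_star, ← tr_star_mul, star_star]

theorem norm_tr_le (a : Alg M) : ‖tr ξ a‖ ≤ ‖ev ξ a‖ := by
  refine (norm_inner_le_norm _ _).trans ?_
  rw [hξ.norm, one_mul]

theorem norm_tr_mul_le (a b : Alg M) : ‖tr ξ (a * b)‖ ≤ ‖ev ξ a‖ * ‖b‖ :=
  (norm_tr_le hξ _).trans (norm_ev_mul_le' hξ a b)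

end Tracial

end Vale.Agent.P082.Val
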