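import Vale.Agent.P082.Val.Pair

/-!
# A pair inside one of the two patterns
-/

namespace Vale.Agent.P082.Val

open scoped InnerProductSpace

universe u

variable {H : Type u} [NormedAddCommGroup H] [InnerProductSpace ℂ H] [CompleteSpace H]
variable {M : VonNeumannAlgebra H} (W : Walk M) (iz : Fin W.size) {m n : ℕ}

theorem letter_flip (r : Fin m → Fin n → Fin W.size) (l : Lab m) :
    W.letter r l.flip = star (W.letter r l) := by
  rcases l with ⟨a, s⟩
  cases s <;> simp [Walk.letter, Lab.flip]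

theorem ev_sum {α : Type*} (s : Finset α) (f : α → Alg M) (ξ : H) :
    ev ξ (∑ a ∈ s, f a) = ∑ a ∈ s, ev ξ (f a) :=
  map_sum (evL ξ) f s

theorem avg_tr {α : Type*} [Fintype α] (f : α → Alg M) (ξ : H) :
    (avg fun a => tr ξ (f a)) = tr ξ (avg f) := by
  simp [avg, tr, ev_smul, ev_sum, inner_smul_right]

theorem avg_mul_mul {α : Type*} [Fintype α] (X Y : Alg M) (f : α → Alg M) :
    (avg fun a => X * f a * Y) = X * avg f * Y := by
  simp [avg, Finset.mul_sum, Finset.sum_mul, mul_smul_comm, smul_mul_assoc]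

theorem norm_avg_le_one {α : Type*} [Fintype α] [Nonempty α] (f : α → Alg M)
    (h : ∀ a, ‖f a‖ ≤ 1) : ‖avg f‖ ≤ 1 :=
  (norm_avg_le f).trans (avgR_le h)

theorem norm_conjAvg_le_one {u : Alg M} (hu : u ∈ unitary (Alg M)) (k : ℕ) :
    ‖W.conjAvg^[k] u‖ ≤ 1 := by
  rw [conjAvg_iterate]
  exact norm_avg_le_one _ fun y => norm_le_one_of_unitary
    (mul_mem (mul_mem (word_unitary W y) hu) (Unitary.star_mem (word_unitary W y)))

/-- Averaging the letter of a pair of minimal span. -/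
theorem avg_pair_val (r : Fin m → Fin n → Fin W.size) (U Q V : List (Tok m)) (l : Lab m)
    (hU : ∀ b ∈ labs U, b.1 ≠ l.1) (hQ : ∀ b ∈ labs Q, b.1 ≠ l.1)
    (hV : ∀ b ∈ labs V, b.1 ≠ l.1) :
    (avg fun x : Fin n → Fin W.size =>
      val W iz (Function.update r l.1 x) (U ++ Sum.inl l :: (Q ++ Sum.inl l.flip :: V))) =
      val W iz r U * W.conjAvg^[n] (val W iz r Q) * val W iz r V := by
  rw [← mul_word_letter_avg W (val W iz r Q) l.flip l.1 rfl r, ← avg_mul_mul]
  refine congrArg avg (funext fun x => ?_)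
  rw [val_append, val_cons, val_append, val_cons, val_update W iz r _ x U hU,
    val_update W iz r _ x Q hQ, val_update W iz r _ x V hV, letter_flip, star_star]
  simp [toItem, itemVal, letter_flip, mul_assoc]

theorem index_free {L : List (Tok m)} {U Q V : List (Tok m)} {l : Lab m}
    (hL : L = U ++ Sum.inl l :: (Q ++ Sum.inl l.flip :: V)) (hnd : (labs L).Nodup) :
    (∀ b ∈ labs U, b.1 ≠ l.1) ∧ (∀ b ∈ labs Q, b.1 ≠ l.1) ∧ (∀ b ∈ labs V, b.1 ≠ l.1) ∧
      (labs Q).Nodup := by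
  subst hL
  have h : labs (U ++ Sum.inl l :: (Q ++ Sum.inl l.flip :: V)) =
      labs U ++ l :: (labs Q ++ l.flip :: labs V) := by
    simp [labs, List.filterMap_append, List.filterMap_cons]
  rw [h, List.nodup_append] at hnd
  obtain ⟨-, h2, h3⟩ := hnd
  rw [List.nodup_cons, List.nodup_append] at h2
  obtain ⟨h4, h5, h6, h7⟩ := h2
  rw [List.nodup_cons] at h6
  refine ⟨fun b hb he => ?_, fun b hb he => ?_, fun b hb he => ?_, h5⟩
  · rcases eq_or_flip_of_fst he with rfl | rfl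
    · exact h3 b hb b (by simp) rfl
    · exact h3 _ hb l.flip (by simp) rfl
  · rcases eq_or_flip_of_fst he with rfl | rfl
    · exact h4 (by simp [hb])
    · exact h7 _ hb l.flip (by simp) rfl
  · rcases eq_or_flip_of_fst he with rfl | rfl
    · exact h4 (by simp [hb])
    · exact h6.1 hb

variable {ξ : H} (hξ : IsTrVec M ξ) (G : Alg M →L[ℂ] Alg M)
include hξ

/-- A pair inside the argument of `G`. -/
theorem case_left {θ e T : ℝ} (hθ : 0 ≤ θ) (he : 0 ≤ e) (hT : 0 ≤ T) (F : Finset H)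
    (hF : ∀ ζ ∈ F, IsTrVec M ζ) (hcard : (F.card : ℝ) ≤ T)
    (hcont : ∀ a, ‖ev ξ (G a)‖ ≤ e * ‖a‖ + T * ∑ ζ ∈ F, ‖ev ζ a‖)
    (hs : ∀ ζ ∈ F, Small W iz ζ θ n n) (LA LB : List (Tok m)) (hnd : (labs LA).Nodup)
    (hN : Nice LA) {l₀ : Lab m} (h0 : l₀ ∈ labs LA) (h0' : l₀.flip ∈ labs LA)
    (hdis : ∀ b ∈ labs LA, ∀ c ∈ labs LB, b.flip ∈ labs LA → c.1 ≠ b.1) (η : Alg M) :
    ‖avg fun r : Fin m → Fin n → Fin W.size =>
        tr ξ (G (val W iz r LA) * star (val W iz r LB) * η)‖ ≤ (e + T * (T * θ)) * ‖η‖ := by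
  obtain ⟨U, l, Q, V, hL, hp⟩ := exists_min_pair hnd h0 h0'
  obtain ⟨hU, hQ, hV, hQnd⟩ := index_free hL hnd
  have hshape := inner_shape (U := U) (Q := Q) (V := V) (l := l) (hL ▸ hN)
  have hB : ∀ c ∈ labs LB, c.1 ≠ l.1 :=
    fun c hc => hdis l (by rw [hL]; simp) c hc (by rw [hL]; simp)
  rw [avg_coord l.1]
  have e1 : ∀ r : Fin m → Fin n → Fin W.size,
      (avg fun x : Fin n → Fin W.size => tr ξ (G (val W iz (Function.update r l.1 x) LA) *
        star (val W iz (Function.update r l.1 x) LB) * η)) =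
      tr ξ (G (val W iz r U * W.conjAvg^[n] (val W iz r Q) * val W iz r V) *
        star (val W iz r LB) * η) := by
    intro r
    simp only [val_update W iz r l.1 _ LB hB]
    rw [avg_tr, show (avg fun x : Fin n → Fin W.size => G (val W iz (Function.update r l.1 x) LA) *
        star (val W iz r LB) * η) = 1 * (avg fun x : Fin n → Fin W.size =>
          G (val W iz (Function.update r l.1 x) LA)) * (star (val W iz r LB) * η) by
      rw [← avg_mul_mul]; simp [mul_assoc]]
    have hG := avg_map (G : Alg M →ₗ[ℂ] Alg M)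
      (fun x : Fin n → Fin W.size => val W iz (Function.update r l.1 x) LA)
    simp only [ContinuousLinearMap.coe_coe] at hG
    rw [← hG, hL, avg_pair_val W iz r U Q V l hU hQ hV]
    simp [mul_assoc]
  simp only [e1]
  refine (norm_avg_le _).trans ?_
  have hb : ∀ r : Fin m → Fin n → Fin W.size,
      ‖tr ξ (G (val W iz r U * W.conjAvg^[n] (val W iz r Q) * val W iz r V) *
        star (val W iz r LB) * η)‖ ≤
        ‖η‖ * (e + T * ∑ ζ ∈ F, ‖ev ζ (W.conjAvg^[n] (val W iz r Q))‖) := by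
    intro r
    rw [mul_comm ‖η‖]
    refine (norm_tr_mul_le hξ _ _).trans (mul_le_mul_of_nonneg_right ?_ (norm_nonneg η))
    rw [norm_ev_mul_unitary hξ (Unitary.star_mem (val_unitary W iz r LB))]
    refine (hcont _).trans (add_le_add ?_ (le_of_eq (congrArg _ (Finset.sum_congr rfl fun ζ hζ => ?_))))
    · refine mul_le_of_le_one_right he ((norm_mul₃_le).trans ?_)
      exact mul_le_one₀ (mul_le_one₀ (norm_le_one_of_unitary (val_unitary W iz r U)) (norm_nonneg _)
        (norm_conjAvg_le_one W (val_unitary W iz r Q) n)) (norm_nonneg _)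
        (norm_le_one_of_unitary (val_unitary W iz r V))
    · rw [norm_ev_mul_unitary (hF ζ hζ) (val_unitary W iz r V),
        norm_ev_unitary_mul (val_unitary W iz r U)]
  refine (avgR_mono hb).trans ?_
  rw [avgR_mul, avgR_add, avgR_const, avgR_mul, avgR_sum, mul_comm ‖η‖]
  refine mul_le_mul_of_nonneg_right (add_le_add le_rfl (mul_le_mul_of_nonneg_left ?_ hT))
    (norm_nonneg η)
  refine (Finset.sum_le_sum fun ζ hζ =>
    avg_pair_small W iz (hF ζ hζ) hθ (hs ζ hζ) hQnd hp hshape).trans ?_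
  rw [Finset.sum_const, nsmul_eq_mul]
  exact mul_le_mul_of_nonneg_right hcard hθ

/-- A pair inside the starred pattern. -/
theorem case_right {θ C : ℝ} (hθ : 0 ≤ θ) (hC : 0 ≤ C) (hG : ∀ a, ‖G a‖ ≤ C * ‖a‖)
    (hs : Small W iz ξ θ n n) (LA LB : List (Tok m)) (hnd : (labs LB).Nodup) (hN : Nice LB)
    {l₀ : Lab m} (h0 : l₀ ∈ labs LB) (h0' : l₀.flip ∈ labs LB)
    (hdis : ∀ b ∈ labs LB, ∀ c ∈ labs LA, b.flip ∈ labs LB → c.1 ≠ b.1) (η : Alg M) :
    ‖avg fun r : Fin m → Fin n → Fin W.size =>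
        tr ξ (G (val W iz r LA) * star (val W iz r LB) * η)‖ ≤ C * θ * ‖η‖ := by
  obtain ⟨U, l, Q, V, hL, hp⟩ := exists_min_pair hnd h0 h0'
  obtain ⟨hU, hQ, hV, hQnd⟩ := index_free hL hnd
  have hshape := inner_shape (U := U) (Q := Q) (V := V) (l := l) (hL ▸ hN)
  have hA : ∀ c ∈ labs LA, c.1 ≠ l.1 :=
    fun c hc => hdis l (by rw [hL]; simp) c hc (by rw [hL]; simp)
  rw [avg_coord l.1]
  have e1 : ∀ r : Fin m → Fin n → Fin W.size,
      (avg fun x : Fin n → Fin W.size => tr ξ (G (val W iz (Function.update r l.1 x) LA) *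
        star (val W iz (Function.update r l.1 x) LB) * η)) =
      tr ξ (η * G (val W iz r LA) *
        star (val W iz r U * W.conjAvg^[n] (val W iz r Q) * val W iz r V)) := by
    intro r
    simp only [val_update W iz r l.1 _ LA hA]
    rw [← avg_pair_val W iz r U Q V l hU hQ hV, ← hL]
    simp only [tr_mul_comm hξ _ η, ← mul_assoc]
    rw [avg_tr]
    simp [avg, Finset.mul_sum, star_sum, mul_smul_comm]
  simp only [e1]
  refine (norm_avg_le _).trans ((avgR_mono
    (g := fun r => C * ‖η‖ * ‖ev ξ (W.conjAvg^[n] (val W iz r Q))‖) fun r => ?_).trans ?_)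
  · refine (norm_tr_le hξ _).trans ((norm_ev_mul_le _ _).trans ?_)
    rw [hξ.star_norm, norm_ev_mul_unitary hξ (val_unitary W iz r V),
      norm_ev_unitary_mul (val_unitary W iz r U)]
    refine mul_le_mul_of_nonneg_right ?_ (norm_nonneg _)
    rw [mul_comm C]
    refine (norm_mul_le _ _).trans (mul_le_mul_of_nonneg_left ((hG _).trans ?_) (norm_nonneg η))
    exact mul_le_of_le_one_right hC (norm_le_one_of_unitary (val_unitary W iz r LA))
  · rw [avgR_mul]
    refine (mul_le_mul_of_nonneg_left (avg_pair_small W iz hξ hθ hs hQnd hp hshape)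
      (mul_nonneg hC (norm_nonneg _))).trans_eq ?_
    ring

end Vale.Agent.P082.Val
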