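import Vale.Agent.P082.Val.Cases

/-!
# All pairs across the two patterns
-/

namespace Vale.Agent.P082.Val

open scoped InnerProductSpace

universe u

variable {H : Type u} [NormedAddCommGroup H] [InnerProductSpace ℂ H] [CompleteSpace H]
variable {M : VonNeumannAlgebra H} (W : Walk M) (iz : Fin W.size) {m n : ℕ}

/-- The path whose word is the letter `la`. -/
def conv (la : Lab m) : (Fin n → Fin W.size) ≃ (Fin n → Fin W.size) :=
  if la.2 then Equiv.refl _ else revInv W

theorem letter_conv (r : Fin m → Fin n → Fin W.size) (la : Lab m) (x : Fin n → Fin W.size) :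
    W.letter (Function.update r la.1 (conv W la x)) la = W.word x := by
  rcases la with ⟨a, s⟩
  cases s
  · simp [conv, Walk.letter, word_revInv]
  · simp [conv, Walk.letter]

theorem letter_split {n₁ k : ℕ} (r : Fin m → Fin (n₁ + k) → Fin W.size) (la : Lab m)
    (y : Fin n₁ → Fin W.size) (w : Fin k → Fin W.size) :
    W.letter (Function.update r la.1 (conv W la (Fin.append y w))) la = W.word y * W.word w := by
  rw [letter_conv, word_append]

theorem avg_split {E : Type*} [AddCommMonoid E] [Module ℂ E] {n₁ k : ℕ} (la : Lab m)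
    (f : (Fin m → Fin (n₁ + k) → Fin W.size) → E) :
    avg f = avg fun r => avg fun y : Fin n₁ → Fin W.size => avg fun w : Fin k → Fin W.size =>
      f (Function.update r la.1 (conv W la (Fin.append y w))) := by
  rw [avg_coord la.1]
  refine congrArg avg (funext fun r => ?_)
  rw [← avg_equiv (conv W la), ← avg_equiv (Fin.appendEquiv n₁ k), avg_prod]
  rfl

theorem avgR_split {n₁ k : ℕ} (la : Lab m)
    (f : (Fin m → Fin (n₁ + k) → Fin W.size) → ℝ) :
    avgR f = avgR fun r => avgR fun y : Fin n₁ → Fin W.size => avgR fun w : Fin k → Fin W.size =>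
      f (Function.update r la.1 (conv W la (Fin.append y w))) := by
  rw [avgR_coord la.1]
  refine congrArg avgR (funext fun r => ?_)
  rw [← avgR_equiv (conv W la), ← avgR_equiv (Fin.appendEquiv n₁ k), avgR_prod]
  rfl

theorem fixedCount_map (L : List (Tok m)) :
    fixedCount W (L.map (toItem W iz)) = L.countP (·.isRight) := by
  induction L with
  | nil => rfl
  | cons t L ih =>
    rcases t with l | b <;>
      simp [fixedCount, toItem, List.countP_cons] at ih ⊢ <;> simp [ih]

theorem items_index (L : List (Tok m)) :
    (L.map (toItem W iz)).filterMap (fun t => t.getLeft?.map Prod.fst) =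
      (labs L).map Prod.fst := by
  induction L with
  | nil => rfl
  | cons t L ih =>
    rcases t with l | b <;>
      simp [toItem, labs, List.filterMap_cons, Function.comp_def] at ih ⊢ <;> exact ih

variable {ξ : H} (hξ : IsTrVec M ξ) (G : Alg M →L[ℂ] Alg M)
include hξ

/-- Mixing after the first letter. -/
theorem mix_step {j : ℕ} {e2 : ℝ} (he2 : 0 ≤ e2) (hd rest : List (Tok m)) (la : Lab m)
    (c : Alg M) (hc : ∀ r : Fin m → Fin n → Fin W.size, val W iz r hd = c)
    (hnd : ((labs (Sum.inl la :: rest)).map Prod.fst).Nodup)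
    (hj : rest.countP (·.isRight) ≤ j)
    (hmart : ∀ R : ℕ, avgR (fun p : (Fin n → Fin W.size) × (Fin R → Fin W.size) =>
      ‖ev ξ (G (c * W.word p.1 * W.word p.2) * star (W.word p.2) - G (c * W.word p.1))‖ ^ 2)
        ≤ e2 ^ 2) :
    avgR (fun r : Fin m → Fin n → Fin W.size =>
      ‖ev ξ (G (val W iz r (hd ++ Sum.inl la :: rest)) -
        G (c * W.letter r la) * val W iz r rest)‖) ≤ √((W.size : ℝ) ^ j) * e2 := by
  have hsz : (1 : ℝ) ≤ W.size := by exact_mod_cast W.size_pos
  have hlabs : labs (Sum.inl la :: rest) = la :: labs rest := rfl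
  rw [hlabs, List.map_cons, List.nodup_cons] at hnd
  have hfree : ∀ l ∈ labs rest, l.1 ≠ la.1 := fun l hl he =>
    hnd.1 (List.mem_map.2 ⟨l, hl, he⟩)
  refine (pow_le_pow_iff_left₀ (avgR_nonneg fun _ => norm_nonneg _) (by positivity) two_ne_zero).1 ?_
  refine (sq_avgR_le _).trans ?_
  rw [mul_pow, Real.sq_sqrt (by positivity)]
  rw [avgR_coord la.1]
  set F : Alg M → ℝ := fun v => avgR fun x : Fin n → Fin W.size =>
    ‖ev ξ (G (c * W.word x * v) * star v - G (c * W.word x))‖ ^ 2 with hF
  have e1 : ∀ r : Fin m → Fin n → Fin W.size, avgR (fun x : Fin n → Fin W.size =>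
      ‖ev ξ (G (val W iz (Function.update r la.1 x) (hd ++ Sum.inl la :: rest)) -
        G (c * W.letter (Function.update r la.1 x) la) *
          val W iz (Function.update r la.1 x) rest)‖ ^ 2) = F (val W iz r rest) := by
    intro r
    rw [hF, ← avgR_equiv (conv W la)]
    refine congrArg avgR (funext fun x => ?_)
    rw [val_append, val_cons, hc, val_update W iz r la.1 _ rest hfree, letter_conv]
    simp only [toItem, itemVal, letter_conv]
    have hv := val_unitary W iz r rest
    rw [← norm_ev_mul_unitary hξ (Unitary.star_mem hv), sub_mul, mul_assoc _ (val W iz r rest),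
      Unitary.mul_star_self_of_mem hv, mul_one, ← mul_assoc c]
  simp only [e1]
  have h := avgR_items_le W (n := n) (rest.map (toItem W iz)) (by rw [items_index]; exact hnd.2) F
    fun v => avgR_nonneg fun x => sq_nonneg _
  refine h.trans ?_
  rw [fixedCount_map]
  refine mul_le_mul (pow_le_pow_right₀ hsz hj) ?_ (avgR_nonneg fun w => avgR_nonneg fun x =>
    sq_nonneg _) (by positivity)
  refine le_trans (le_of_eq ?_) (hmart ((rest.map (toItem W iz)).map (itemLen W n)).sum)
  rw [avgR_prod, hF]
  simp only [avgR, Finset.mul_sum]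
  rw [Finset.sum_comm]
  exact Finset.sum_congr rfl fun x _ => Finset.sum_congr rfl fun w _ => mul_left_comm _ _ _

theorem case_equal {j : ℕ} {e2 : ℝ} (he2 : 0 ≤ e2) (hd rest : List (Tok m)) (la : Lab m)
    (c : Alg M) (hc : ∀ r : Fin m → Fin n → Fin W.size, val W iz r hd = c)
    (hnd : ((labs (Sum.inl la :: rest)).map Prod.fst).Nodup)
    (hj : rest.countP (·.isRight) ≤ j)
    (hmart : ∀ R : ℕ, avgR (fun p : (Fin n → Fin W.size) × (Fin R → Fin W.size) =>
      ‖ev ξ (G (c * W.word p.1 * W.word p.2) * star (W.word p.2) - G (c * W.word p.1))‖ ^ 2)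
        ≤ e2 ^ 2)
    (hmean : avg (fun y : Fin n → Fin W.size => G (c * W.word y) * star (W.word y)) = G c)
    (η : Alg M) :
    ‖avg (fun r : Fin m → Fin n → Fin W.size =>
        tr ξ (G (val W iz r (hd ++ Sum.inl la :: rest)) *
          star (val W iz r (hd ++ Sum.inl la :: rest)) * η)) - tr ξ (G c * star c * η)‖ ≤
      √((W.size : ℝ) ^ j) * e2 * ‖η‖ := by
  have hm : avg (fun r : Fin m → Fin n → Fin W.size =>
      tr ξ (G (c * W.letter r la) * star (W.letter r la) * star c * η)) =
      tr ξ (G c * star c * η) := by
    rw [avg_coord la.1]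
    have : ∀ r : Fin m → Fin n → Fin W.size, (avg fun x : Fin n → Fin W.size =>
        tr ξ (G (c * W.letter (Function.update r la.1 x) la) *
          star (W.letter (Function.update r la.1 x) la) * star c * η)) =
        tr ξ (G c * star c * η) := by
      intro r
      rw [← avg_equiv (conv W la)]
      simp only [letter_conv]
      rw [avg_tr, show (avg fun x : Fin n → Fin W.size =>
        G (c * W.word x) * star (W.word x) * star c * η) = 1 * avg (fun x : Fin n → Fin W.size =>
          G (c * W.word x) * star (W.word x)) * (star c * η) by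
        rw [← avg_mul_mul]; simp [mul_assoc], hmean]
      simp [mul_assoc]
    simp only [this]
    exact avg_const _
  rw [← hm, ← avg_sub]
  refine (norm_avg_le _).trans ((avgR_mono (g := fun r => ‖η‖ * ‖ev ξ
    (G (val W iz r (hd ++ Sum.inl la :: rest)) - G (c * W.letter r la) * val W iz r rest)‖)
    fun r => ?_).trans ?_)
  · have hA : val W iz r (hd ++ Sum.inl la :: rest) = c * W.letter r la * val W iz r rest := by
      rw [val_append, val_cons, hc, mul_assoc]; rfl
    have hcu : c ∈ unitary (Alg M) := hc r ▸ val_unitary W iz r hd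
    have hl : W.letter r la ∈ unitary (Alg M) := itemVal_unitary W r (Sum.inl la)
    have hv := val_unitary W iz r rest
    have e : tr ξ (G (val W iz r (hd ++ Sum.inl la :: rest)) *
          star (val W iz r (hd ++ Sum.inl la :: rest)) * η) -
        tr ξ (G (c * W.letter r la) * star (W.letter r la) * star c * η) =
        tr ξ ((G (val W iz r (hd ++ Sum.inl la :: rest)) - G (c * W.letter r la) * val W iz r rest) *
          star (val W iz r (hd ++ Sum.inl la :: rest)) * η) := by
      simp only [tr, ← inner_sub_right, ← ev_sub, sub_mul]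
      congr 3
      simp only [hA, star_mul, mul_assoc]
      rw [← mul_assoc (val W iz r rest), Unitary.mul_star_self_of_mem hv, one_mul]
    rw [e, mul_comm ‖η‖]
    refine (norm_tr_mul_le hξ _ _).trans (mul_le_mul_of_nonneg_right (le_of_eq ?_) (norm_nonneg η))
    exact norm_ev_mul_unitary hξ (Unitary.star_mem (val_unitary W iz r _)) _
  · rw [avgR_mul, mul_comm]
    exact mul_le_mul_of_nonneg_right (mix_step W iz hξ G he2 hd rest la c hc hnd hj hmart)
      (norm_nonneg η)

omit hξ in
/-- In `A' ++ R` a pair led by the first letter starts with it. -/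
theorem pair_first {A R U Q V : List (Lab m)} {la l : Lab m} (hA : la ∈ A) (hA' : la.flip ∉ A)
    (hl : l.1 = la.1) (h : A ++ R = U ++ l :: (Q ++ l.flip :: V)) (hnd : (A ++ R).Nodup) :
    l = la := by
  rcases eq_or_flip_of_fst hl with h' | h'
  · exact h'
  exfalso
  subst h'
  rw [flip_flip] at h
  have h1 : (A ++ R).idxOf la < A.length := by
    rw [List.idxOf_append_of_mem hA]; exact List.idxOf_lt_length_of_mem hA
  have h2 : A.length ≤ (A ++ R).idxOf la.flip := by
    rw [List.idxOf_append_of_notMem hA']; omega
  rw [h] at h1 h2 hnd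
  rw [List.nodup_append] at hnd
  have hU : la.flip ∉ U := fun hu => hnd.2.2 _ hu la.flip (by simp) rfl
  have hU' : la ∉ U := fun hu => hnd.2.2 _ hu la (by simp) rfl
  rw [List.idxOf_append_of_notMem hU'] at h1
  rw [List.idxOf_append_of_notMem hU, List.idxOf_cons_self] at h2
  rw [List.idxOf_cons_ne _ (flip_ne la)] at h1
  omega

/-- Two different patterns, every pair across. -/
theorem case_cross {n₁ k j : ℕ} {θ e2 C : ℝ} (hθ : 0 ≤ θ) (he2 : 0 ≤ e2) (hC : 0 ≤ C)
    (hG : ∀ a, ‖G a‖ ≤ C * ‖a‖)
    (hs : Small W iz ξ θ k (n₁ + k)) (hs' : Small W iz ξ θ (n₁ + k) (n₁ + k))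
    (hd rest A' R LB : List (Tok m)) (la : Lab m)
    (c : Alg M) (hc : ∀ r : Fin m → Fin (n₁ + k) → Fin W.size, val W iz r hd = c)
    (hndA : ((labs (Sum.inl la :: rest)).map Prod.fst).Nodup)
    (hj : rest.countP (·.isRight) ≤ j)
    (hmart : ∀ R : ℕ, avgR (fun p : (Fin (n₁ + k) → Fin W.size) × (Fin R → Fin W.size) =>
      ‖ev ξ (G (c * W.word p.1 * W.word p.2) * star (W.word p.2) - G (c * W.word p.1))‖ ^ 2)
        ≤ e2 ^ 2)
    (hmart₁ : avgR (fun p : (Fin n₁ → Fin W.size) × (Fin k → Fin W.size) =>
      ‖ev ξ (G (c * W.word p.1 * W.word p.2) * star (W.word p.2) - G (c * W.word p.1))‖ ^ 2)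
        ≤ e2 ^ 2)
    (hval : ∀ r : Fin m → Fin (n₁ + k) → Fin W.size,
      val W iz r (hd ++ Sum.inl la :: rest) * star (val W iz r LB) = val W iz r (A' ++ R))
    (hnd : (labs (A' ++ R)).Nodup) (hN : Nice (A' ++ R)) (hla : la ∈ labs A')
    (hla' : la.flip ∉ labs A') (hla'' : la.flip ∈ labs (A' ++ R)) (η : Alg M) :
    ‖avg fun r : Fin m → Fin (n₁ + k) → Fin W.size =>
        tr ξ (G (val W iz r (hd ++ Sum.inl la :: rest)) * star (val W iz r LB) * η)‖ ≤
      (√((W.size : ℝ) ^ j) * e2 + e2 + C * θ) * ‖η‖ := by
  obtain ⟨U, l, Q, V, hL, hp⟩ := exists_min_pair hnd (l₀ := la) (by simp [mem_labs.1 hla]) hla''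
  obtain ⟨hU, hQ, hV, hQnd⟩ := index_free hL hnd
  have hshape := inner_shape (U := U) (Q := Q) (V := V) (l := l) (hL ▸ hN)
  have hcu : c ∈ unitary (Alg M) :=
    hc (Classical.arbitrary _) ▸ val_unitary W iz _ hd
  -- the exposed prefix
  set X : (Fin (n₁ + k) → Fin W.size) → Alg M :=
    fun x => G (c * W.word x) * star (W.word x) * star c with hX
  set X₁ : (Fin n₁ → Fin W.size) → Alg M :=
    fun y => G (c * W.word y) * star (W.word y) * star c with hX₁
  have hX₁n : ∀ y, ‖X₁ y‖ ≤ C := by
    intro y
    refine (norm_mul₃_le).trans ?_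
    have h1 := (hG (c * W.word y)).trans (mul_le_of_le_one_right hC
      (norm_le_one_of_unitary (mul_mem hcu (word_unitary W y))))
    calc _ ≤ C * 1 * 1 := mul_le_mul (mul_le_mul h1 (norm_le_one_of_unitary
          (Unitary.star_mem (word_unitary W y))) (norm_nonneg _) hC)
          (norm_le_one_of_unitary (Unitary.star_mem hcu)) (norm_nonneg _) (by positivity)
      _ = C := by ring
  set L := A' ++ R with hLdef
  -- main term
  have hmain : ‖avg fun r : Fin m → Fin (n₁ + k) → Fin W.size => avg fun y : Fin n₁ → Fin W.size =>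
      avg fun w : Fin k → Fin W.size =>
        tr ξ (X₁ y * val W iz (Function.update r la.1 (conv W la (Fin.append y w))) L * η)‖ ≤
      C * θ * ‖η‖ := by
    by_cases hl : l.1 = la.1
    · have hl' : l = la := pair_first (A := labs A') (R := labs R) (U := labs U) (Q := labs Q)
        (V := labs V) hla hla' hl (by rw [← labs_append, ← hLdef, hL]; simp [labs,
          List.filterMap_append]) (by rw [← labs_append]; exact hnd)
      subst hl'
      have e1 : ∀ r y, (avg fun w : Fin k → Fin W.size =>
          tr ξ (X₁ y * val W iz (Function.update r l.1 (conv W l (Fin.append y w))) L * η)) =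
          tr ξ (X₁ y * (val W iz r U * W.word y) * W.conjAvg^[k] (val W iz r Q) *
            (star (W.word y) * val W iz r V) * η) := by
        intro r y
        rw [conjAvg_iterate, avg_tr]
        congr 1
        rw [mul_assoc (X₁ y * _ * _) _ η, ← avg_mul_mul]
        refine congrArg avg (funext fun w => ?_)
        rw [hL, val_append, val_cons, val_append, val_cons, val_update W iz r _ _ U hU,
          val_update W iz r _ _ Q hQ, val_update W iz r _ _ V hV]
        simp only [toItem, itemVal, letter_flip, letter_split, star_mul, mul_assoc]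
      simp only [e1]
      refine (norm_avg_le _).trans ((avgR_mono (g := fun r => C * ‖η‖ *
        ‖ev ξ (W.conjAvg^[k] (val W iz r Q))‖) fun r => (norm_avg_le _).trans
          (avgR_le fun y => ?_)).trans ?_)
      · rw [tr_mul_comm hξ _ η]
        refine (norm_tr_le hξ _).trans ?_
        simp only [← mul_assoc η]
        rw [norm_ev_mul_unitary hξ (mul_mem (Unitary.star_mem (word_unitary W y))
          (val_unitary W iz r V))]
        refine (norm_ev_mul_le _ _).trans (mul_le_mul_of_nonneg_right ?_ (norm_nonneg _))
        rw [mul_comm C]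
        refine norm_mul₃_le.trans (le_trans (mul_le_mul (mul_le_mul_of_nonneg_left (hX₁n y)
          (norm_nonneg η)) (norm_le_one_of_unitary (mul_mem (val_unitary W iz r U)
            (word_unitary W y))) (norm_nonneg _) (by positivity)) (le_of_eq (mul_one _)))
      · rw [avgR_mul]
        refine (mul_le_mul_of_nonneg_left (avg_pair_small W iz hξ hθ hs hQnd hp hshape)
          (mul_nonneg hC (norm_nonneg _))).trans_eq ?_
        ring
    · have e1 : ∀ (y : Fin n₁ → Fin W.size) (w : Fin k → Fin W.size)
          (r : Fin m → Fin (n₁ + k) → Fin W.size), (avg fun x : Fin (n₁ + k) → Fin W.size =>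
          tr ξ (X₁ y * val W iz (Function.update (Function.update r l.1 x) la.1
            (conv W la (Fin.append y w))) L * η)) =
          tr ξ (X₁ y * val W iz (Function.update r la.1 (conv W la (Fin.append y w))) U *
            W.conjAvg^[n₁ + k] (val W iz (Function.update r la.1 (conv W la (Fin.append y w))) Q) *
            (val W iz (Function.update r la.1 (conv W la (Fin.append y w))) V * η)) := by
        intro y w r
        rw [avg_tr]
        congr 1
        set r' := Function.update r la.1 (conv W la (Fin.append y w))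
        have hcomm : ∀ x, Function.update (Function.update r l.1 x) la.1
            (conv W la (Fin.append y w)) = Function.update r' l.1 x := fun x =>
          Function.update_comm hl _ _ r
        simp only [hcomm]
        rw [show (avg fun x : Fin (n₁ + k) → Fin W.size =>
          X₁ y * val W iz (Function.update r' l.1 x) L * η) = X₁ y *
            (avg fun x : Fin (n₁ + k) → Fin W.size => val W iz (Function.update r' l.1 x) L) * η by
          rw [← avg_mul_mul], hL, avg_pair_val W iz r' U Q V l hU hQ hV]
        simp [mul_assoc]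
      have hsw : ∀ (f : (Fin n₁ → Fin W.size) → (Fin k → Fin W.size) →
          (Fin m → Fin (n₁ + k) → Fin W.size) → ℂ),
          (avg fun r => avg fun y => avg fun w => f y w r) =
            avg fun y => avg fun w => avg fun r => f y w r := by
        intro f
        simp only [avg, smul_eq_mul, Finset.mul_sum]
        rw [Finset.sum_comm]
        refine Finset.sum_congr rfl fun y _ => ?_
        rw [Finset.sum_comm]
        exact Finset.sum_congr rfl fun w _ => Finset.sum_congr rfl fun r _ => by ring
      rw [hsw]
      have e2' : ∀ y w, (avg fun r : Fin m → Fin (n₁ + k) → Fin W.size =>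
          tr ξ (X₁ y * val W iz (Function.update r la.1 (conv W la (Fin.append y w))) L * η)) =
          avg fun r => avg fun x : Fin (n₁ + k) → Fin W.size =>
            tr ξ (X₁ y * val W iz (Function.update (Function.update r l.1 x) la.1
              (conv W la (Fin.append y w))) L * η) := fun y w => avg_coord l.1 _
      simp only [e2', e1]
      rw [← hsw (fun y w r => tr ξ (X₁ y *
        val W iz (Function.update r la.1 (conv W la (Fin.append y w))) U *
          W.conjAvg^[n₁ + k] (val W iz (Function.update r la.1 (conv W la (Fin.append y w))) Q) *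
          (val W iz (Function.update r la.1 (conv W la (Fin.append y w))) V * η)))]
      refine (norm_avg_le _).trans ((avgR_mono fun r => (norm_avg_le _).trans
        (avgR_mono (g := fun y => avgR fun w : Fin k → Fin W.size => C * ‖η‖ *
          ‖ev ξ (W.conjAvg^[n₁ + k]
            (val W iz (Function.update r la.1 (conv W la (Fin.append y w))) Q))‖)
          fun y => (norm_avg_le _).trans (avgR_mono fun w => ?_))).trans ?_)
      · set r' := Function.update r la.1 (conv W la (Fin.append y w))
        rw [← mul_assoc, tr_mul_comm hξ _ η]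
        refine (norm_tr_le hξ _).trans ?_
        simp only [← mul_assoc η]
        rw [norm_ev_mul_unitary hξ (val_unitary W iz r' V)]
        refine (norm_ev_mul_le _ _).trans (mul_le_mul_of_nonneg_right ?_ (norm_nonneg _))
        rw [mul_comm C]
        exact norm_mul₃_le.trans (le_trans (mul_le_mul (mul_le_mul_of_nonneg_left (hX₁n y)
          (norm_nonneg η)) (norm_le_one_of_unitary (val_unitary W iz r' U)) (norm_nonneg _)
            (by positivity)) (le_of_eq (mul_one _)))
      · rw [← avgR_split W la (fun r => C * ‖η‖ *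
          ‖ev ξ (W.conjAvg^[n₁ + k] (val W iz r Q))‖), avgR_mul]
        refine (mul_le_mul_of_nonneg_left (avg_pair_small W iz hξ hθ hs' hQnd hp hshape)
          (mul_nonneg hC (norm_nonneg _))).trans_eq ?_
        ring
  -- replace `G` of the pattern by the exposed prefix
  have hstep : avgR (fun r : Fin m → Fin (n₁ + k) → Fin W.size =>
      ‖tr ξ (G (val W iz r (hd ++ Sum.inl la :: rest)) * star (val W iz r LB) * η) -
        tr ξ (G (c * W.letter r la) * star (W.letter r la) * star c * val W iz r L * η)‖) ≤
      √((W.size : ℝ) ^ j) * e2 * ‖η‖ := by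
    refine (avgR_mono (g := fun r => ‖η‖ * ‖ev ξ
      (G (val W iz r (hd ++ Sum.inl la :: rest)) - G (c * W.letter r la) * val W iz r rest)‖)
      fun r => ?_).trans ?_
    · have hl : W.letter r la ∈ unitary (Alg M) := itemVal_unitary W r (Sum.inl la)
      have hA : val W iz r (hd ++ Sum.inl la :: rest) = c * W.letter r la * val W iz r rest := by
        rw [val_append, val_cons, hc, mul_assoc]; rfl
      have e : star (W.letter r la) * star c * val W iz r L =
          val W iz r rest * star (val W iz r LB) := by
        rw [← hval r, hA, ← mul_assoc, ← mul_assoc, ← star_mul,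
          Unitary.star_mul_self_of_mem (mul_mem hcu hl), one_mul]
      have e2' : G (c * W.letter r la) * star (W.letter r la) * star c * val W iz r L =
          G (c * W.letter r la) * val W iz r rest * star (val W iz r LB) := by
        simp only [mul_assoc] at e ⊢
        rw [e]
      rw [e2', tr, tr, ← inner_sub_right, ← ev_sub, ← sub_mul, ← sub_mul, mul_comm ‖η‖]
      refine (norm_tr_mul_le hξ _ _).trans (mul_le_mul_of_nonneg_right (le_of_eq ?_) (norm_nonneg η))
      exact norm_ev_mul_unitary hξ (Unitary.star_mem (val_unitary W iz r LB)) _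
    · rw [avgR_mul, mul_comm]
      exact mul_le_mul_of_nonneg_right (mix_step W iz hξ G he2 hd rest la c hc hndA hj hmart)
        (norm_nonneg η)
  -- cut the first letter
  have hcut : avgR (fun r : Fin m → Fin (n₁ + k) → Fin W.size => avgR fun y : Fin n₁ → Fin W.size =>
      avgR fun w : Fin k → Fin W.size =>
        ‖tr ξ (X (Fin.append y w) *
            val W iz (Function.update r la.1 (conv W la (Fin.append y w))) L * η) -
          tr ξ (X₁ y * val W iz (Function.update r la.1 (conv W la (Fin.append y w))) L * η)‖) ≤
      e2 * ‖η‖ := by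
    refine avgR_le fun r => ?_
    refine (avgR_mono (g := fun y => avgR fun w : Fin k → Fin W.size => ‖η‖ *
      ‖ev ξ (G (c * W.word y * W.word w) * star (W.word w) - G (c * W.word y))‖)
      fun y => avgR_mono fun w => ?_).trans ?_
    · rw [tr, tr, ← inner_sub_right, ← ev_sub, ← sub_mul, ← sub_mul, mul_comm ‖η‖]
      refine (norm_tr_mul_le hξ _ _).trans (mul_le_mul_of_nonneg_right (le_of_eq ?_) (norm_nonneg η))
      rw [norm_ev_mul_unitary hξ (val_unitary W iz _ L)]
      have e : X (Fin.append y w) - X₁ y =
          (G (c * W.word y * W.word w) * star (W.word w) - G (c * W.word y)) *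
            (star (W.word y) * star c) := by
        simp only [hX, hX₁, word_append, star_mul, sub_mul, mul_assoc]
      rw [e, norm_ev_mul_unitary hξ (mul_mem (Unitary.star_mem (word_unitary W y))
        (Unitary.star_mem hcu))]
    · rw [← avgR_prod (fun p : (Fin n₁ → Fin W.size) × (Fin k → Fin W.size) => ‖η‖ *
        ‖ev ξ (G (c * W.word p.1 * W.word p.2) * star (W.word p.2) - G (c * W.word p.1))‖),
        avgR_mul, mul_comm e2]
      exact mul_le_mul_of_nonneg_left ((pow_le_pow_iff_left₀ (avgR_nonneg fun _ => norm_nonneg _)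
        he2 two_ne_zero).1 ((sq_avgR_le _).trans hmart₁)) (norm_nonneg η)
  have hsplit : (avg fun r : Fin m → Fin (n₁ + k) → Fin W.size =>
      tr ξ (G (c * W.letter r la) * star (W.letter r la) * star c * val W iz r L * η)) =
      avg fun r => avg fun y : Fin n₁ → Fin W.size => avg fun w : Fin k → Fin W.size =>
        tr ξ (X (Fin.append y w) *
          val W iz (Function.update r la.1 (conv W la (Fin.append y w))) L * η) := by
    rw [avg_split W la]
    simp only [letter_conv, hX, mul_assoc]
  have h1 := (norm_avg_le fun r : Fin m → Fin (n₁ + k) → Fin W.size =>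
    tr ξ (G (val W iz r (hd ++ Sum.inl la :: rest)) * star (val W iz r LB) * η) -
      tr ξ (G (c * W.letter r la) * star (W.letter r la) * star c * val W iz r L * η)).trans hstep
  rw [avg_sub, hsplit] at h1
  have h2 : ‖(avg fun r : Fin m → Fin (n₁ + k) → Fin W.size => avg fun y : Fin n₁ → Fin W.size =>
      avg fun w : Fin k → Fin W.size =>
        tr ξ (X (Fin.append y w) *
          val W iz (Function.update r la.1 (conv W la (Fin.append y w))) L * η)) -
      avg fun r : Fin m → Fin (n₁ + k) → Fin W.size => avg fun y : Fin n₁ → Fin W.size =>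
      avg fun w : Fin k → Fin W.size =>
        tr ξ (X₁ y * val W iz (Function.update r la.1 (conv W la (Fin.append y w))) L * η)‖ ≤
      e2 * ‖η‖ := by
    simp only [← avg_sub]
    exact ((norm_avg_le _).trans (avgR_mono fun r => (norm_avg_le _).trans
      (avgR_mono fun y => norm_avg_le _))).trans hcut
  calc ‖_‖ ≤ _ + _ := norm_le_norm_sub_add _ (avg fun r : Fin m → Fin (n₁ + k) → Fin W.size =>
        avg fun y : Fin n₁ → Fin W.size => avg fun w : Fin k → Fin W.size =>
        tr ξ (X (Fin.append y w) *
          val W iz (Function.update r la.1 (conv W la (Fin.append y w))) L * η))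
    _ ≤ √((W.size : ℝ) ^ j) * e2 * ‖η‖ + (e2 * ‖η‖ + C * θ * ‖η‖) :=
        add_le_add h1 ((norm_le_norm_sub_add _ _).trans (add_le_add h2 hmain))
    _ = _ := by ring

end Vale.Agent.P082.Val
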