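import Vale.Agent.P082.Iface

/-!
# Combinatorics of a pair of reduced patterns
-/

namespace Vale.Agent.P082.Val

universe u

/-- A token: a label, or the separator with a sign. -/
abbrev Tok (m : ℕ) := Lab m ⊕ Bool

variable {m : ℕ}

theorem flip_flip (l : Lab m) : l.flip.flip = l := by simp [Lab.flip]

theorem flip_ne (l : Lab m) : l.flip ≠ l := fun h => by
  have := congrArg Prod.snd h
  simp [Lab.flip] at this

theorem eq_or_flip_of_fst {l l' : Lab m} (h : l'.1 = l.1) : l' = l ∨ l' = l.flip := by
  rcases l with ⟨a, s⟩
  rcases l' with ⟨a', s'⟩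
  cases s <;> cases s' <;> simp_all [Lab.flip]

/-- The inverse token. -/
def tInv : Tok m → Tok m
  | .inl l => .inl l.flip
  | .inr b => .inr (!b)

theorem tInv_tInv (t : Tok m) : tInv (tInv t) = t := by
  cases t <;> simp [tInv, flip_flip]

theorem tInv_injective : Function.Injective (tInv (m := m)) :=
  Function.Involutive.injective tInv_tInv

/-- The inverse word. -/
def rInv (L : List (Tok m)) : List (Tok m) := (L.map tInv).reverse

/-- The tokens of one block. -/
def blockToks (front : Bool) (b : List (Lab m)) : List (Tok m) :=
  bif front then .inr true :: b.map .inl else b.map .inl ++ [.inr true]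

/-- The tokens of a list of blocks. -/
def toks (front : Bool) (s : List (List (Lab m))) : List (Tok m) :=
  (s.map (blockToks front)).flatten

/-- Two tokens may follow each other. -/
def Adj (x y : Tok m) : Prop := y ≠ tInv x ∧ (x.isLeft ∨ y.isLeft)

/-- A reduced token word. -/
def Nice (L : List (Tok m)) : Prop := L.IsChain Adj

/-- The labels of a token word. -/
def labs (L : List (Tok m)) : List (Lab m) := L.filterMap Sum.getLeft?

@[simp] theorem labs_append (L L' : List (Tok m)) : labs (L ++ L') = labs L ++ labs L' :=
  List.filterMap_append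

@[simp] theorem mem_labs {L : List (Tok m)} {l : Lab m} : l ∈ labs L ↔ Sum.inl l ∈ L := by
  simp [labs]

theorem labs_map_inl (b : List (Lab m)) : labs (b.map Sum.inl : List (Tok m)) = b := by
  induction b with
  | nil => rfl
  | cons a b ih => simpa [labs] using ih

theorem labs_rInv (L : List (Tok m)) : labs (rInv L) = ((labs L).map Lab.flip).reverse := by
  induction L with
  | nil => rfl
  | cons t L ih =>
    rw [rInv, List.map_cons, List.reverse_cons, labs_append, ← rInv, ih]
    rcases t with a | b <;> simp [labs, tInv, List.filterMap_cons]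

theorem labs_toks (front : Bool) (s : List (List (Lab m))) :
    labs (toks front s) = s.flatten := by
  induction s with
  | nil => rfl
  | cons b s ih =>
    simp only [toks, List.map_cons, List.flatten_cons, labs_append]
    rw [← toks, ih]
    congr 1
    cases front <;> simp [blockToks, labs, List.filterMap_map, List.filterMap_cons, Function.comp_def]

theorem length_blockToks (front : Bool) (b : List (Lab m)) :
    (blockToks front b).length = b.length + 1 := by
  cases front <;> simp [blockToks]

theorem length_toks (front : Bool) (s : List (List (Lab m))) :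
    (toks front s).length = s.flatten.length + s.length := by
  induction s with
  | nil => rfl
  | cons b s ih =>
    simp only [toks, List.map_cons, List.flatten_cons, List.length_append, length_blockToks,
      List.length_cons]
    rw [← toks, ih]
    omega

theorem inl_run_eq {b b' : List (Lab m)} {R R' : List (Tok m)}
    (hR : ∀ t ∈ R.head?, t = Sum.inr true) (hR' : ∀ t ∈ R'.head?, t = Sum.inr true)
    (h : b.map Sum.inl ++ R = b'.map Sum.inl ++ R') : b = b' ∧ R = R' := by
  induction b generalizing b' with
  | nil =>
    cases b' with
    | nil => exact ⟨rfl, by simpa using h⟩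
    | cons a b' =>
      simp only [List.map_nil, List.nil_append, List.map_cons, List.cons_append] at h
      have := hR (Sum.inl a) (by rw [h]; rfl)
      simp at this
  | cons a b ih =>
    cases b' with
    | nil =>
      simp only [List.map_nil, List.nil_append, List.map_cons, List.cons_append] at h
      have := hR' (Sum.inl a) (by rw [← h]; rfl)
      simp at this
    | cons a' b' =>
      simp only [List.map_cons, List.cons_append, List.cons.injEq, Sum.inl.injEq] at h
      obtain ⟨h1, h2⟩ := ih h.2
      exact ⟨by rw [h.1, h1], h2⟩

theorem toks_injective (front : Bool) : ∀ s s' : List (List (Lab m)),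
    toks front s = toks front s' → s = s' := by
  intro s
  induction s with
  | nil =>
    intro s' h
    cases s' with
    | nil => rfl
    | cons b s' =>
      have := congrArg List.length h
      simp only [toks, List.map_cons, List.map_nil, List.flatten_cons, List.flatten_nil,
        List.length_nil, List.length_append, length_blockToks] at this
      omega
  | cons b s ih =>
    intro s' h
    cases s' with
    | nil =>
      have := congrArg List.length h
      simp only [toks, List.map_cons, List.map_nil, List.flatten_cons, List.flatten_nil,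
        List.length_nil, List.length_append, length_blockToks] at this
      omega
    | cons b' s' =>
      simp only [toks, List.map_cons, List.flatten_cons] at h
      rw [← toks, ← toks] at h
      cases front with
      | false =>
        simp only [blockToks, cond_false, List.append_assoc, List.singleton_append] at h
        obtain ⟨h1, h2⟩ := inl_run_eq (by simp) (by simp) h
        rw [h1, ih s' (List.tail_eq_of_cons_eq h2)]
      | true =>
        simp only [blockToks, cond_true, List.cons_append, List.cons.injEq, true_and] at h
        have hd : ∀ u : List (List (Lab m)), ∀ t ∈ (toks true u).head?, t = Sum.inr true := by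
          intro u t ht
          cases u with
          | nil => simp [toks] at ht
          | cons c u => simp [toks, blockToks] at ht; exact ht.symm
        obtain ⟨h1, h2⟩ := inl_run_eq (hd _) (hd _) h
        rw [h1, ih s' h2]

theorem adj_block (front : Bool) {b : List (Lab m)} (hb : Reduced b) :
    Nice (blockToks front b) := by
  have h : Nice (b.map Sum.inl : List (Tok m)) := by
    rw [Nice, List.isChain_map]
    exact List.IsChain.imp (fun x y hxy => ⟨fun e => hxy (Sum.inl.inj e), Or.inl rfl⟩) hb
  cases front with
  | false =>
    simp only [blockToks, cond_false]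
    refine List.IsChain.append h (List.isChain_singleton _) fun x hx y hy => ?_
    simp only [List.head?_cons, Option.mem_some_iff] at hy
    subst hy
    obtain ⟨a, -, rfl⟩ := List.mem_map.1 (List.mem_of_mem_getLast? hx)
    exact ⟨by simp [tInv], Or.inl rfl⟩
  | true =>
    simp only [blockToks, cond_true]
    refine List.IsChain.cons h fun y hy => ?_
    obtain ⟨a, -, rfl⟩ := List.mem_map.1 (List.mem_of_mem_head? hy)
    exact ⟨by simp [tInv], Or.inr rfl⟩

theorem nice_toks (front : Bool) : ∀ s : List (List (Lab m)),
    (∀ b ∈ s, b ≠ [] ∧ Reduced b) → Nice (toks front s) := by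
  intro s
  induction s with
  | nil => intro _; exact List.isChain_nil
  | cons b s ih =>
    intro hs
    simp only [toks, List.map_cons, List.flatten_cons]
    rw [← toks]
    refine List.IsChain.append (adj_block front (hs b (by simp)).2)
      (ih fun c hc => hs c (List.mem_cons_of_mem _ hc)) fun x hx y hy => ?_
    cases s with
    | nil => simp [toks] at hy
    | cons c s =>
      obtain ⟨hbne, -⟩ := hs b (by simp)
      obtain ⟨hcne, -⟩ := hs c (by simp)
      cases b with
      | nil => exact absurd rfl hbne
      | cons b₀ b =>
        cases c with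
        | nil => exact absurd rfl hcne
        | cons c₀ c =>
          cases front with
          | false =>
            rw [show blockToks false (b₀ :: b) = (b₀ :: b).map Sum.inl ++ [Sum.inr true] from rfl,
              List.getLast?_concat, Option.mem_some_iff] at hx
            simp [toks, blockToks] at hy
            subst hx; subst hy
            exact ⟨by simp [tInv], Or.inr rfl⟩
          | true =>
            simp [toks, blockToks] at hy
            subst hy
            simp only [blockToks, cond_true, List.map_cons, List.getLast?_cons_cons] at hx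
            obtain ⟨a, -, rfl⟩ := List.mem_map.1
              (show x ∈ (b₀ :: b).map Sum.inl from List.mem_of_mem_getLast? hx)
            exact ⟨by simp [tInv], Or.inl rfl⟩

/-- Neither the middle nor anything in it is paired inside. -/
def NoPair (Q : List (Tok m)) : Prop := ∀ l, l ∈ labs Q → l.flip ∉ labs Q

/-- A pair of minimal span. -/
theorem exists_min_pair {L : List (Tok m)} (hnd : (labs L).Nodup) {l₀ : Lab m}
    (h0 : l₀ ∈ labs L) (h0' : l₀.flip ∈ labs L) :
    ∃ U l Q V, L = U ++ Sum.inl l :: (Q ++ Sum.inl l.flip :: V) ∧ NoPair Q := by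
  classical
  have hex : ∃ k, ∃ U l Q V, L = U ++ Sum.inl l :: (Q ++ Sum.inl l.flip :: V) ∧ Q.length = k := by
    obtain ⟨U, V, rfl⟩ := List.append_of_mem (mem_labs.1 h0)
    have h : Sum.inl l₀.flip ∈ U ∨ Sum.inl l₀.flip ∈ V := by
      have h1 := mem_labs.1 h0'
      simp only [List.mem_append, List.mem_cons, Sum.inl.injEq] at h1
      rcases h1 with h1 | h1 | h1
      · exact Or.inl h1
      · exact absurd h1 (flip_ne _)
      · exact Or.inr h1
    rcases h with h | h
    · obtain ⟨U₁, U₂, rfl⟩ := List.append_of_mem h
      exact ⟨_, U₁, l₀.flip, U₂, V, by simp [flip_flip], rfl⟩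
    · obtain ⟨V₁, V₂, rfl⟩ := List.append_of_mem h
      exact ⟨_, U, l₀, V₁, V₂, rfl, rfl⟩
  obtain ⟨U, l, Q, V, hL, hQ⟩ := Nat.find_spec hex
  refine ⟨U, l, Q, V, hL, fun b hb hb' => ?_⟩
  obtain ⟨Q₁, Q₂, hQ₂⟩ := List.append_of_mem (mem_labs.1 hb)
  have h : Sum.inl b.flip ∈ Q₁ ∨ Sum.inl b.flip ∈ Q₂ := by
    have h1 := mem_labs.1 hb'
    simp only [hQ₂, List.mem_append, List.mem_cons, Sum.inl.injEq] at h1
    rcases h1 with h1 | h1 | h1
    · exact Or.inl h1
    · exact absurd h1 (flip_ne _)
    · exact Or.inr h1
  subst hQ₂
  rcases h with h | h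
  · obtain ⟨R₁, R₂, rfl⟩ := List.append_of_mem h
    refine Nat.find_min hex (m := R₂.length) (by rw [← hQ]; simp; omega)
      ⟨U ++ Sum.inl l :: R₁, b.flip, R₂, Q₂ ++ Sum.inl l.flip :: V, ?_, rfl⟩
    rw [hL]; simp [flip_flip]
  · obtain ⟨R₁, R₂, rfl⟩ := List.append_of_mem h
    refine Nat.find_min hex (m := R₁.length) (by rw [← hQ]; simp; omega)
      ⟨U ++ Sum.inl l :: Q₁, b, R₁, R₂ ++ Sum.inl l.flip :: V, ?_, rfl⟩
    rw [hL]; simp

/-- What lies in a pair of minimal span of a reduced word. -/
theorem inner_shape {U Q V : List (Tok m)} {l : Lab m}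
    (hN : Nice (U ++ Sum.inl l :: (Q ++ Sum.inl l.flip :: V))) :
    (∃ b, Q = [Sum.inr b]) ∨ ∃ c b Q', Q = c ++ Sum.inl b :: Q' ∧
      (c = [] ∨ ∃ s, c = [Sum.inr s]) := by
  have hN' : Nice (Sum.inl l :: (Q ++ Sum.inl l.flip :: V)) := (List.isChain_append.1 hN).2.1
  match Q with
  | [] =>
    simp only [Nice, List.nil_append, List.isChain_cons_cons] at hN'
    exact absurd rfl hN'.1.1
  | Sum.inl b :: Q' => exact Or.inr ⟨[], b, Q', rfl, Or.inl rfl⟩
  | [Sum.inr s] => exact Or.inl ⟨s, rfl⟩
  | Sum.inr s :: Sum.inl b :: Q' => exact Or.inr ⟨[Sum.inr s], b, Q', rfl, Or.inr ⟨s, rfl⟩⟩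
  | Sum.inr s :: Sum.inr s' :: Q' =>
    simp only [Nice, List.cons_append, List.isChain_cons_cons] at hN'
    simpa using hN'.2.1.2

/-- Cancel the common suffix. -/
theorem exists_reduced : ∀ (n : ℕ) (A B : List (Tok m)), A.length = n → A.length = B.length →
    A ≠ B → Nice A → Nice B →
    (∀ t ∈ B, t.isLeft ∨ t = Sum.inr true) → (∀ t ∈ A, t.isLeft ∨ t = Sum.inr true) →
    ∃ A' B' S, A = A' ++ S ∧ B = B' ++ S ∧ A' ≠ [] ∧ A'.length = B'.length ∧ A' ≠ B' ∧
      Nice (A' ++ rInv B') := by
  intro n
  induction n with
  | zero =>
    intro A B hn hl hne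
    rw [List.length_eq_zero_iff] at hn
    subst hn
    exact absurd (List.length_eq_zero_iff.1 hl.symm).symm hne
  | succ n ih =>
    intro A B hn hl hne hA hB hBr hAr
    obtain ⟨A₀, a, rfl⟩ := (List.eq_nil_or_concat A).resolve_left
      (fun h => by simp [h] at hn)
    obtain ⟨B₀, b, rfl⟩ := (List.eq_nil_or_concat B).resolve_left
      (fun h => by simp [h] at hl)
    simp only [List.concat_eq_append] at *
    by_cases hab : a = b
    · subst hab
      obtain ⟨A', B', S, hA', hB', h1, h2, h3, h4⟩ := ih A₀ B₀ (by simpa using hn)
        (by simpa using hl) (fun h => hne (by rw [h])) (List.IsChain.left_of_append hA)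
        (List.IsChain.left_of_append hB)
        (fun t ht => hBr t (List.mem_append_left _ ht))
        (fun t ht => hAr t (List.mem_append_left _ ht))
      exact ⟨A', B', S ++ [a], by rw [hA', List.append_assoc], by rw [hB', List.append_assoc],
        h1, h2, h3, h4⟩
    · refine ⟨A₀ ++ [a], B₀ ++ [b], [], by simp, by simp, by simp, hl, hne, ?_⟩
      refine List.IsChain.append hA ?_ ?_
      · rw [rInv, List.isChain_reverse, List.isChain_map]
        refine List.IsChain.imp (fun x y hxy => ⟨?_, ?_⟩) hB
        · intro e
          exact hxy.1 (by rw [← tInv_tInv y, ← e])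
        · cases x <;> cases y <;> simp_all [Adj, tInv]
      · intro x hx y hy
        simp [rInv] at hx hy
        subst hx; subst hy
        refine ⟨fun e => hab (tInv_injective e).symm, ?_⟩
        rcases hAr a (by simp) with h | h
        · exact Or.inl h
        rcases hBr b (by simp) with h' | h'
        · right; cases b <;> simp_all [tInv]
        · exact absurd (h.trans h'.symm) hab

end Vale.Agent.P082.Val
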