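import Vale.Agent.P082.Val.Words
import Vale.Agent.P082.Val.Tok

/-!
# Averaging a pair of minimal span
-/

namespace Vale.Agent.P082.Val

open scoped InnerProductSpace
open Filter

universe u

variable {H : Type u} [NormedAddCommGroup H] [InnerProductSpace ℂ H] [CompleteSpace H]
variable {M : VonNeumannAlgebra H} (W : Walk M) (iz : Fin W.size) {m n : ℕ}

/-- The item of a token; the separator is the step `iz`. -/
def toItem : Tok m → Item m W
  | .inl l => .inl l
  | .inr b => .inr (if b then iz else W.inv iz)

/-- The value of a token word. -/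
noncomputable def val (r : Fin m → Fin n → Fin W.size) (L : List (Tok m)) : Alg M :=
  ((L.map (toItem W iz)).map (itemVal W r)).prod

theorem val_nil (r : Fin m → Fin n → Fin W.size) : val W iz r [] = 1 := rfl

theorem val_append (r : Fin m → Fin n → Fin W.size) (L L' : List (Tok m)) :
    val W iz r (L ++ L') = val W iz r L * val W iz r L' := by
  simp [val]

theorem val_cons (r : Fin m → Fin n → Fin W.size) (t : Tok m) (L : List (Tok m)) :
    val W iz r (t :: L) = itemVal W r (toItem W iz t) * val W iz r L := by
  simp [val]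

theorem itemVal_unitary (r : Fin m → Fin n → Fin W.size) (t : Item m W) :
    itemVal W r t ∈ unitary (Alg M) := by
  rcases t with l | i
  · simp only [itemVal, Walk.letter]
    split
    · exact word_unitary W _
    · exact Unitary.star_mem (word_unitary W _)
  · exact W.unit i

theorem val_unitary (r : Fin m → Fin n → Fin W.size) (L : List (Tok m)) :
    val W iz r L ∈ unitary (Alg M) :=
  Submonoid.list_prod_mem _ fun x hx => by
    obtain ⟨t, -, rfl⟩ := List.mem_map.1 hx
    exact itemVal_unitary W r t

theorem norm_le_one_of_unitary {u : Alg M} (hu : u ∈ unitary (Alg M)) : ‖u‖ ≤ 1 :=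
  (ContinuousLinearMap.opNorm_le_bound _ zero_le_one fun x => by
    rw [norm_coe_unitary hu, one_mul] : ‖(u : H →L[ℂ] H)‖ ≤ 1)

theorem itemVal_tInv (r : Fin m → Fin n → Fin W.size) (t : Tok m) :
    itemVal W r (toItem W iz (tInv t)) = star (itemVal W r (toItem W iz t)) := by
  rcases t with l | b
  · rcases l with ⟨a, s⟩
    cases s <;> simp [tInv, toItem, itemVal, Walk.letter, Lab.flip]
  · cases b <;> simp [tInv, toItem, itemVal, W.g_inv]

theorem val_rInv (r : Fin m → Fin n → Fin W.size) (L : List (Tok m)) :
    val W iz r (rInv L) = star (val W iz r L) := by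
  induction L with
  | nil => simp [rInv, val_nil]
  | cons t L ih =>
    have : rInv (t :: L) = rInv L ++ [tInv t] := by simp [rInv]
    rw [this, val_append, ih, val_cons, val_cons, val_nil, mul_one, itemVal_tInv, star_mul]

theorem val_update (r : Fin m → Fin n → Fin W.size) (a : Fin m) (x : Fin n → Fin W.size)
    (L : List (Tok m)) (h : ∀ l ∈ labs L, l.1 ≠ a) :
    val W iz (Function.update r a x) L = val W iz r L := by
  refine itemsVal_update W r a x _ fun l hl => h l ?_
  obtain ⟨t, ht, he⟩ := List.mem_map.1 hl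
  rcases t with l' | b
  · simp only [toItem, Sum.inl.injEq] at he
    rw [← he]; exact mem_labs.2 ht
  · simp [toItem] at he

/-- The averages that are small at `ζ`: `k` is the length of the averaged word, `n` of a letter. -/
structure Small (ζ : H) (θ : ℝ) (k n : ℕ) : Prop where
  gap : ∀ b : Bool, ‖ev ζ (W.conjAvg^[k] (W.g (if b then iz else W.inv iz)))‖ ≤ θ
  inner : ∃ n₀ ≤ k, (∀ Q : Alg M, ‖ev ζ (W.conjAvg^[k] Q)‖ ^ 2 ≤
      (⟪ev ζ Q, ev ζ (W.conjAvg^[2 * n₀] Q)⟫_ℂ).re) ∧
    ∀ c : Alg M, (c = 1 ∨ ∃ b : Bool, c = W.g (if b then iz else W.inv iz)) →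
      avgR (fun y : Fin (2 * n₀) → Fin W.size =>
        ‖ev ζ (W.conjAvg^[n] (star c * W.word y * c))‖) ≤ θ ^ 2

theorem re_avg {α : Type*} [Fintype α] (f : α → ℂ) : (avg f).re = avgR fun a => (f a).re := by
  rw [avg, avgR, smul_eq_mul, ← Complex.ofReal_natCast, ← Complex.ofReal_inv, Complex.re_ofReal_mul,
    Complex.re_sum]

theorem mul_word_letter_avg (X : Alg M) (b : Lab m) (a : Fin m) (ha : b.1 = a)
    (r : Fin m → Fin n → Fin W.size) :
    (avg fun x : Fin n → Fin W.size => star (W.letter (Function.update r a x) b) * X *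
      W.letter (Function.update r a x) b) = W.conjAvg^[n] X := by
  subst ha
  rcases b with ⟨a, s⟩
  cases s with
  | true => simpa [Walk.letter] using avg_conj_word' W n X
  | false => simpa [Walk.letter] using (conjAvg_iterate W n X).symm

theorem avg_pair_small {ζ : H} (hζ : IsTrVec M ζ) {θ : ℝ} (hθ : 0 ≤ θ) {k : ℕ}
    (hs : Small W iz ζ θ k n) {Q : List (Tok m)} (hnd : (labs Q).Nodup) (hp : NoPair Q)
    (hshape : (∃ b, Q = [Sum.inr b]) ∨ ∃ c b Q', Q = c ++ Sum.inl b :: Q' ∧
      (c = [] ∨ ∃ s, c = [Sum.inr s])) :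
    avgR (fun r : Fin m → Fin n → Fin W.size => ‖ev ζ (W.conjAvg^[k] (val W iz r Q))‖) ≤ θ := by
  rcases hshape with ⟨b, rfl⟩ | ⟨c, b, Q', rfl, hc⟩
  · simpa [val, toItem, itemVal, avgR_const] using hs.gap b
  refine (pow_le_pow_iff_left₀ (avgR_nonneg fun _ => norm_nonneg _) hθ two_ne_zero).1 ?_
  refine (sq_avgR_le _).trans ?_
  obtain ⟨n₀, -, hdec, hin⟩ := hs.inner
  refine (avgR_mono fun r => hdec _).trans ?_
  set a := b.1 with ha
  have hfree : ∀ l ∈ labs Q', l.1 ≠ a := by
    intro l hl he
    rw [labs_append] at hnd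
    have hb : b ∉ labs Q' ∧ b.flip ∉ labs Q' := by
      refine ⟨fun h => ?_, fun h => hp b (by simp) (by simp [mem_labs.1 h])⟩
      have : labs (Sum.inl b :: Q') = b :: labs Q' := rfl
      rw [this] at hnd
      exact (List.nodup_cons.1 (List.nodup_append.1 hnd).2.1).1 h
    rcases eq_or_flip_of_fst he with rfl | rfl
    · exact hb.1 hl
    · exact hb.2 hl
  have hc' : ∀ r : Fin m → Fin n → Fin W.size,
      val W iz r c = 1 ∨ ∃ s : Bool, val W iz r c = W.g (if s then iz else W.inv iz) := by
    intro r
    rcases hc with rfl | ⟨s, rfl⟩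
    · exact Or.inl rfl
    · exact Or.inr ⟨s, by simp [val, toItem, itemVal]⟩
  have hcu : ∀ r r' : Fin m → Fin n → Fin W.size, val W iz r c = val W iz r' c := by
    intro r r'
    rcases hc with rfl | ⟨s, rfl⟩ <;> simp [val, toItem, itemVal]
  set r₀ : Fin m → Fin n → Fin W.size := Classical.arbitrary _
  set cc := val W iz r₀ c with hcc
  have hcc' : cc = 1 ∨ ∃ s : Bool, cc = W.g (if s then iz else W.inv iz) := hc' r₀
  refine le_trans ?_ (hin cc hcc')
  rw [avgR_coord a]
  refine avgR_le fun r => ?_
  -- one value of the other letters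
  have key : ∀ y : Fin (2 * n₀) → Fin W.size,
      ‖avg (fun x : Fin n → Fin W.size =>
        tr ζ (star (val W iz (Function.update r a x) (c ++ Sum.inl b :: Q')) *
          (W.word y * val W iz (Function.update r a x) (c ++ Sum.inl b :: Q') *
            star (W.word y))))‖ ≤ ‖ev ζ (W.conjAvg^[n] (star cc * W.word y * cc))‖ := by
    intro y
    set q := val W iz r Q'
    have e : ∀ x, tr ζ (star (val W iz (Function.update r a x) (c ++ Sum.inl b :: Q')) *
          (W.word y * val W iz (Function.update r a x) (c ++ Sum.inl b :: Q') * star (W.word y))) =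
        tr ζ ((star (W.letter (Function.update r a x) b) * (star cc * W.word y * cc) *
          W.letter (Function.update r a x) b) * (q * star (W.word y) * star q)) := by
      intro x
      rw [val_append, val_cons, val_update W iz r a x Q' hfree, hcu _ r₀]
      simp only [toItem, itemVal, star_mul, mul_assoc]
      rw [tr_mul_comm hζ (star q)]
      simp only [mul_assoc]
      rfl
    simp only [e]
    have e2 : avg (fun x : Fin n → Fin W.size =>
        tr ζ ((star (W.letter (Function.update r a x) b) * (star cc * W.word y * cc) *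
          W.letter (Function.update r a x) b) * (q * star (W.word y) * star q))) =
        tr ζ (W.conjAvg^[n] (star cc * W.word y * cc) * (q * star (W.word y) * star q)) := by
      rw [← mul_word_letter_avg W (star cc * W.word y * cc) b a rfl r]
      simp only [avg, tr, ev_smul, smul_mul_assoc, Finset.sum_mul, inner_smul_right]
      congr 1
      rw [show ev ζ (∑ x, _) = ∑ x, ev ζ _ from map_sum (evL ζ) _ _, inner_sum]
    rw [e2]
    refine (norm_tr_mul_le hζ _ _).trans (mul_le_of_le_one_right (norm_nonneg _) ?_)
    exact norm_le_one_of_unitary (mul_mem (mul_mem (val_unitary W iz r Q')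
      (Unitary.star_mem (word_unitary W y))) (Unitary.star_mem (val_unitary W iz r Q')))
  have e3 : ∀ Qv : Alg M, (⟪ev ζ Qv, ev ζ (W.conjAvg^[2 * n₀] Qv)⟫_ℂ) =
      avg fun y : Fin (2 * n₀) → Fin W.size =>
        tr ζ (star Qv * (W.word y * Qv * star (W.word y))) := by
    intro Qv
    rw [conjAvg_iterate, ev_avg]
    simp only [avg, inner_smul_right, inner_sum, tr_star_mul, smul_eq_mul]
  simp only [e3]
  have hre : avgR (fun x : Fin n → Fin W.size => (avg fun y : Fin (2 * n₀) → Fin W.size =>
      tr ζ (star (val W iz (Function.update r a x) (c ++ Sum.inl b :: Q')) *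
        (W.word y * val W iz (Function.update r a x) (c ++ Sum.inl b :: Q') *
          star (W.word y)))).re) =
      (avg fun y : Fin (2 * n₀) → Fin W.size => avg fun x : Fin n → Fin W.size =>
        tr ζ (star (val W iz (Function.update r a x) (c ++ Sum.inl b :: Q')) *
          (W.word y * val W iz (Function.update r a x) (c ++ Sum.inl b :: Q') *
            star (W.word y)))).re := by
    have hsw : ∀ f : (Fin n → Fin W.size) → (Fin (2 * n₀) → Fin W.size) → ℂ,
        (avg fun y => avg fun x => f x y) = avg fun x => avg fun y => f x y := by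
      intro f
      simp only [avg, smul_eq_mul, Finset.mul_sum]
      rw [Finset.sum_comm]
      exact Finset.sum_congr rfl fun x _ => Finset.sum_congr rfl fun y _ => mul_left_comm _ _ _
    rw [hsw, re_avg]
  rw [hre]
  refine (Complex.re_le_norm _).trans ((norm_avg_le _).trans (avgR_mono key))

end Vale.Agent.P082.Val
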