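import Vale.Agent.P082.Val.Alg

/-!
# Words of a walk and prescribed steps
-/

namespace Vale.Agent.P082.Val

open scoped InnerProductSpace

universe u

variable {H : Type u} [NormedAddCommGroup H] [InnerProductSpace ℂ H] [CompleteSpace H]
variable {M : VonNeumannAlgebra H} (W : Walk M)

instance : Nonempty (Fin W.size) := ⟨⟨0, W.size_pos⟩⟩

theorem size_cast_pos : (0 : ℝ) < W.size := by exact_mod_cast W.size_pos

theorem word_unitary {n : ℕ} (y : Fin n → Fin W.size) : W.word y ∈ unitary (Alg M) :=
  Submonoid.list_prod_mem _ fun x hx => by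
    obtain ⟨i, rfl⟩ := List.mem_ofFn.1 hx
    exact W.unit _

theorem word_zero (y : Fin 0 → Fin W.size) : W.word y = 1 := by simp [Walk.word]

theorem word_cons {n : ℕ} (i : Fin W.size) (y : Fin n → Fin W.size) :
    W.word (Fin.cons i y) = W.g i * W.word y := by
  simp [Walk.word, List.ofFn_succ]

theorem word_snoc {n : ℕ} (y : Fin (n + 1) → Fin W.size) :
    W.word y = W.word (Fin.init y) * W.g (y (Fin.last n)) := by
  simp only [Walk.word]
  rw [List.ofFn_succ', List.concat_eq_append, List.prod_append, List.prod_singleton]
  rfl

theorem word_append {n k : ℕ} (y : Fin n → Fin W.size) (v : Fin k → Fin W.size) :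
    W.word (Fin.append y v) = W.word y * W.word v := by
  simp only [Walk.word]
  rw [← List.prod_append, ← List.ofFn_fin_append]
  congr 2
  funext i
  refine Fin.addCases (fun i => ?_) (fun i => ?_) i <;> simp

/-- The reversed inverse path. -/
def revInv {n : ℕ} : (Fin n → Fin W.size) ≃ (Fin n → Fin W.size) where
  toFun y := fun i => W.inv (y i.rev)
  invFun y := fun i => W.inv.symm (y i.rev)
  left_inv y := by funext i; simp
  right_inv y := by funext i; simp

theorem word_revInv {n : ℕ} (y : Fin n → Fin W.size) :
    W.word (revInv W y) = star (W.word y) := by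
  induction n with
  | zero => simp [word_zero]
  | succ n ih =>
    have h : revInv W y = Fin.cons (W.inv (y (Fin.last n))) (revInv W (Fin.init y)) := by
      funext i
      refine Fin.cases ?_ (fun i => ?_) i
      · simp [revInv, Fin.rev_zero]
      · simp [revInv, Fin.rev_succ, Fin.init]
    rw [h, word_cons, ih, W.g_inv, word_snoc W y, star_mul]

theorem conjAvg_eq (Q : Alg M) :
    W.conjAvg Q = avg fun i => W.g i * Q * star (W.g i) := by
  simp [Walk.conjAvg, avg]

theorem conjAvg_iterate (n : ℕ) (Q : Alg M) :
    W.conjAvg^[n] Q = avg fun y : Fin n → Fin W.size => W.word y * Q * star (W.word y) := by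
  induction n with
  | zero => simp [avg, word_zero]
  | succ n ih =>
    rw [Function.iterate_succ_apply', ih, conjAvg_eq,
      ← avg_equiv (Fin.consEquiv fun _ : Fin (n + 1) => Fin W.size)
        (fun y : Fin (n + 1) → Fin W.size => W.word y * Q * star (W.word y)), avg_prod]
    refine congrArg avg (funext fun i => ?_)
    simp only [avg, Finset.mul_sum, Finset.sum_mul, mul_smul_comm, smul_mul_assoc, Fin.consEquiv,
      Equiv.coe_fn_mk, word_cons, star_mul, mul_assoc]

theorem conjAvg_iterate_star (n : ℕ) (Q : Alg M) :
    W.conjAvg^[n] (star Q) = star (W.conjAvg^[n] Q) := by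
  simp only [conjAvg_iterate, avg, star_smul, star_sum, star_mul, star_star, mul_assoc, star_inv₀,
    star_natCast]

theorem avg_conj_word' (n : ℕ) (Q : Alg M) :
    (avg fun y : Fin n → Fin W.size => star (W.word y) * Q * W.word y) = W.conjAvg^[n] Q := by
  rw [conjAvg_iterate, ← avg_equiv (revInv W) (fun y => W.word y * Q * star (W.word y))]
  simp [word_revInv]

/-- An item: a fixed step or a letter. -/
abbrev Item (m : ℕ) (W : Walk M) := Lab m ⊕ Fin W.size

/-- The value of an item. -/
noncomputable def itemVal {m n : ℕ} (r : Fin m → Fin n → Fin W.size) : Item m W → Alg M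
  | .inl l => W.letter r l
  | .inr i => W.g i

/-- The length of an item. -/
def itemLen {m : ℕ} (n : ℕ) : Item m W → ℕ
  | .inl _ => n
  | .inr _ => 1

/-- The number of fixed steps. -/
def fixedCount {m : ℕ} (L : List (Item m W)) : ℕ := L.countP (·.isRight)

theorem itemVal_update {m n : ℕ} (r : Fin m → Fin n → Fin W.size) (a : Fin m)
    (x : Fin n → Fin W.size) {t : Item m W} (ht : ∀ l, t = .inl l → l.1 ≠ a) :
    itemVal W (Function.update r a x) t = itemVal W r t := by
  rcases t with l | i
  · simp [itemVal, Walk.letter, Function.update_of_ne (ht l rfl)]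
  · rfl

theorem itemsVal_update {m n : ℕ} (r : Fin m → Fin n → Fin W.size) (a : Fin m)
    (x : Fin n → Fin W.size) (L : List (Item m W)) (h : ∀ l, .inl l ∈ L → l.1 ≠ a) :
    (L.map (itemVal W (Function.update r a x))).prod = (L.map (itemVal W r)).prod := by
  congr 1
  exact List.map_congr_left fun t ht => itemVal_update W r a x fun l hl => h l (hl ▸ ht)

/-- Prescribed steps cost a power of the number of steps. -/
theorem avgR_items_le {m n : ℕ} : ∀ (L : List (Item m W)),
    (L.filterMap (fun t => t.getLeft?.map Prod.fst)).Nodup → ∀ f : Alg M → ℝ, (∀ a, 0 ≤ f a) →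
      avgR (fun r : Fin m → Fin n → Fin W.size => f (L.map (itemVal W r)).prod) ≤
        (W.size : ℝ) ^ fixedCount W L *
          avgR (fun w : Fin (L.map (itemLen W n)).sum → Fin W.size => f (W.word w)) := by
  intro L
  induction L with
  | nil =>
    intro _ f _
    have : ∀ w : Fin 0 → Fin W.size, f (W.word w) = f 1 := fun w => by rw [word_zero]
    show avgR (fun _ : Fin m → Fin n → Fin W.size => f 1) ≤
      (W.size : ℝ) ^ 0 * avgR (fun w : Fin 0 → Fin W.size => f (W.word w))
    simp only [this, pow_zero, one_mul, avgR_const, le_refl]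
  | cons t L ih =>
    intro hnd f hf
    rcases t with l | i
    · have hnd' : l.1 ∉ L.filterMap (fun t => t.getLeft?.map Prod.fst) ∧
          (L.filterMap (fun t => t.getLeft?.map Prod.fst)).Nodup := by simpa using hnd
      have hfresh : ∀ l' : Lab m, Sum.inl l' ∈ L → l'.1 ≠ l.1 := fun l' hl' he =>
        hnd'.1 (List.mem_filterMap.2 ⟨_, hl', by simp [he]⟩)
      rw [avgR_coord l.1]
      have e : ∀ (r : Fin m → Fin n → Fin W.size) x,
          f ((Sum.inl l :: L).map (itemVal W (Function.update r l.1 x))).prod =
            f ((if l.2 then W.word x else star (W.word x)) * (L.map (itemVal W r)).prod) := by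
        intro r x
        rw [List.map_cons, List.prod_cons, itemsVal_update W r l.1 x L hfresh]
        simp [itemVal, Walk.letter]
      simp only [e]
      have h1 : ∀ v : Alg M, avgR (fun x : Fin n → Fin W.size =>
          f ((if l.2 then W.word x else star (W.word x)) * v)) =
            avgR (fun x : Fin n → Fin W.size => f (W.word x * v)) := by
        intro v
        rcases Bool.eq_false_or_eq_true l.2 with hl | hl <;> simp only [hl, if_true]
        rw [← avgR_equiv (revInv W) (fun x => f (W.word x * v))]
        simp [word_revInv]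
      simp only [h1]
      refine (ih hnd'.2 (fun v => avgR fun x : Fin n → Fin W.size => f (W.word x * v))
        fun v => avgR_nonneg fun x => hf _).trans_eq ?_
      have hc : fixedCount W (Sum.inl l :: L) = fixedCount W L := by
        simp [fixedCount, List.countP_cons]
      rw [hc]
      congr 1
      rw [avgR_prod'_comm]
      refine ((avgR_prod (fun p : (Fin n → Fin W.size) ×
        (Fin (L.map (itemLen W n)).sum → Fin W.size) => f (W.word p.1 * W.word p.2))).symm).trans ?_
      refine Eq.trans ?_ (avgR_equiv (Fin.appendEquiv n (L.map (itemLen W n)).sum)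
        (fun w : Fin (n + (L.map (itemLen W n)).sum) → Fin W.size => f (W.word w)))
      simp [Fin.appendEquiv, word_append]
    · have hnd' : (L.filterMap (fun t => t.getLeft?.map Prod.fst)).Nodup := by
        rwa [List.filterMap_cons_none (by rfl)] at hnd
      refine (ih hnd' (fun v => f (W.g i * v)) fun v => hf _).trans ?_
      have hc : fixedCount W (Sum.inr i :: L) = fixedCount W L + 1 := by
        simp [fixedCount, List.countP_cons]
      rw [hc, pow_succ, mul_assoc]
      refine mul_le_mul_of_nonneg_left ?_ (by positivity)
      refine le_trans ?_ (le_of_eq (congrArg ((W.size : ℝ) * ·)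
        (avgR_equiv (Fin.appendEquiv 1 (L.map (itemLen W n)).sum)
          (fun w : Fin (1 + (L.map (itemLen W n)).sum) → Fin W.size => f (W.word w)))))
      rw [avgR_prod]
      simp only [Fin.appendEquiv, Equiv.coe_fn_mk, word_append]
      have h1 : ∀ a : Fin 1 → Fin W.size, W.word a = W.g (a 0) := fun a => by
        simp [Walk.word]
      simp only [h1]
      rw [← avgR_equiv (Equiv.funUnique (Fin 1) (Fin W.size)).symm]
      simp only [Equiv.funUnique_symm_apply, uniqueElim_const]
      conv_rhs => rw [avgR, Fintype.card_fin, ← mul_assoc,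
        mul_inv_cancel₀ (size_cast_pos W).ne', one_mul]
      refine Finset.single_le_sum (f := fun s => avgR fun w => f (W.g s * W.word w))
        (fun s _ => avgR_nonneg fun w => hf _) (Finset.mem_univ i)
  where
    avgR_prod'_comm {α β : Type} [Fintype α] [Fintype β] (f : α → β → ℝ) :
        avgR (fun b => avgR fun a => f a b) = avgR fun a => avgR fun b => f a b := by
      simp only [avgR, Finset.mul_sum, ← mul_assoc]
      rw [Finset.sum_comm]
      exact Finset.sum_congr rfl fun a _ => Finset.sum_congr rfl fun b _ => by
        rw [mul_comm (Fintype.card β : ℝ)⁻¹]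

end Vale.Agent.P082.Val
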